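import Vale.Agent.P092.H534.Ch.Long
import Vale.Agent.P092.H411.S2.Tor

/-!
P092 (helper534), TEAM P, stages 2 and 3, [CL-NRM]: helper411's nested chains of the two walls, for
every second countable locally compact group `E` with a PROPER continuous homomorphism
`i₁ : FormGroup σ (hyp r ε J₀) →* E` (no map from `E` to a projective group).

`chain_w1P` (`r = q + 3`), `chain_wrP` (`r = q + 2`): literals of `H411.S2.chain_w1`, `chain_wr`;
`chain_w1L` (`r = 2`): the point wall in Witt index 2, symplectic and unitary groups.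
-/

set_option linter.all false

open Matrix Set Topology Filter

namespace Vale.Agent.P092.H534.Ch

open Vale.Agent.P092.H303
open Vale.Agent.P092.H411 Vale.Agent.P092.H411.S2
open Vale.Agent.P092.H701 (RowPair HChain)
open Vale.Agent.P092.H761 (GChain)
open Vale.Agent.P092.H261 (PingT)
open Vale.Agent.P092.H701 (tor dg elem slRow dg_self dg_gt tor_comm tor_elem)
open Vale.Agent.P092.H411.ChS (bS KS)
open Vale.Agent.P092.RC (GG)

section row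

variable {k : Type} [NontriviallyNormedField k] {n : Type} [Fintype n] [DecidableEq n]
  {G : Subgroup (SpecialLinearGroup n k)}

/-- the row pair of a `RowN` -/
def pairN {i j : n} (R : RowN G i j) : RowPair G k (n → k) where
  ρ₁ x := x.1.1 i
  ρ₂ x := x.1.1 j
  cont₁ := SpK.continuous_row i
  cont₂ := SpK.continuous_row j
  ne x := row_ne i j x
  up := R.up
  lo := R.lo
  cont_up := R.cu
  cont_lo := R.cl
  up₁ t x := R.u₁ t x.1.1
  up₂ t x := R.u₂ t x.1.1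
  lo₁ t x := R.l₁ t x.1.1
  lo₂ t x := R.l₂ t x.1.1

theorem pairN_K {i j : n} (R : RowN G i j) : (pairN R).K = R.K := by
  have e : Metric.closedBall (0 : k) 1 = {t : k | ‖t‖ ≤ 1} := by
    ext t
    simp
  change R.up '' Metric.closedBall 0 1 ∪ R.lo '' Metric.closedBall 0 1 = _
  rw [e]
  rfl

variable {E : Type} [Group E] [TopologicalSpace E] [IsTopologicalGroup E]
  [LocallyCompactSpace E] [SecondCountableTopology E] [MeasurableSpace E] [BorelSpace E]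
  {φ : G →* E}

/-- ping-pong of one direction in `E` -/
theorem ppsD [ProperSpace k] (D : DirG G) (hφ : Continuous φ)
    (hp : ∀ C : Set E, IsCompact C → ∃ C' : Set G, IsCompact C' ∧ φ ⁻¹' C ⊆ C') :
    PPs (fun N => φ D.g ^ N) (φ '' D.R.K) := by
  have h := pps_rows (pairN D.R) (a := D.i) (b := D.j) (fun x => rfl) (fun x => rfl) D.hg D.lt φ hφ
    hp
  rwa [pairN_K] at h

/-- one value of the ping-pong property in the letters `PingT` -/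
theorem PPs.pingT {E : Type} [Group E] [TopologicalSpace E] [MeasurableSpace E] {b : ℕ → E}
    {K : Set E} (h : PPs b K) (p : ℕ) :
    ∃ (M : ℕ) (κ κ' : Fin p → E), (∀ l, κ l ∈ K) ∧ (∀ l, κ' l ∈ K) ∧
      PingT E p (fun l => κ l * b M * κ' l) := by
  obtain ⟨N, hN⟩ := h.2 p
  obtain ⟨κ, κ', Bm, Bp, h1, h2, h3, h4, h5, h6, h7⟩ := hN N le_rfl
  exact ⟨N, κ, κ', h1, h2, Bm, Bp, h3, h4, h5, h6, h7⟩

/-- chains from ping-pong sequences -/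
theorem gchain_pps {E : Type} [Group E] [TopologicalSpace E] [MeasurableSpace E] {r : ℕ}
    {b : Fin r → ℕ → E} {K : Fin r → Set E} (h : ∀ j, PPs (b j) (K j))
    (hb : ∀ i j, i < j → ∀ N M, b i N * b j M = b j M * b i N)
    (hK : ∀ i j, i < j → ∀ N, ∀ x ∈ K j, b i N * x = x * b i N) :
    GChain (fun K : Set E => IsCompact K) (PingT E) r b K where
  cpt j := (h j).1
  comm_b := hb
  comm_K := hK
  ping j p := (h j).pingT p

/-- A chain of any length of `E`. -/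
theorem gchain_dirP [ProperSpace k] (hφ : Continuous φ)
    (hp : ∀ C : Set E, IsCompact C → ∃ C' : Set G, IsCompact C' ∧ φ ⁻¹' C ⊆ C') {r : ℕ}
    (D : Fin r → DirG G) (hb : ∀ i j, i < j → Commute (D i).g (D j).g)
    (hK : ∀ i j, i < j → ∀ x ∈ (D j).R.K, Commute (D i).g x) :
    GChain (fun K : Set E => IsCompact K) (PingT E) r (fun j M => φ (D j).g ^ M)
      (fun j => φ '' (D j).R.K) :=
  gchain_pps (fun j => ppsD (D j) hφ hp) (fun i j hij N M => ((hb i j hij).map φ).pow_pow N M)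
    (by
      rintro i j hij N _ ⟨x, hx, rfl⟩
      exact ((hK i j hij x hx).map φ).pow_left N)

/-- A nested chain of `E`: first direction `D₀`, tail in `S` by `θ : S →* G`. -/
theorem gchain_consP [ProperSpace k] (hφ : Continuous φ)
    (hp : ∀ C : Set E, IsCompact C → ∃ C' : Set G, IsCompact C' ∧ φ ⁻¹' C ⊆ C')
    {S : Type} [Group S] {θ : S →* G} (D₀ : DirG G) (h0 : ∀ s, Commute D₀.g (θ s)) {m : ℕ}
    (T : Fin m → DirG G) {gS : Fin m → S} {KS : Fin m → Set S} (hg : ∀ j, θ (gS j) = (T j).g)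
    (hK : ∀ j, θ '' KS j = (T j).R.K) (hc : ∀ i j, i < j → Commute (gS i) (gS j))
    (hcK : ∀ i j, i < j → ∀ x ∈ KS j, Commute (gS i) x) :
    ∃ (b : Fin (m + 1) → ℕ → E) (𝒦 : Fin (m + 1) → Set E),
      GChain (fun K : Set E => IsCompact K) (PingT E) (m + 1) b 𝒦 ∧
      (∀ M, b 0 M = φ D₀.g ^ M) ∧ (∀ j M, (φ.comp θ) (gS j ^ M) = b j.succ M) ∧
      ∀ j, (φ.comp θ) '' KS j = 𝒦 j.succ := by
  refine ⟨_, _, gchain_dirP hφ hp (Fin.cons D₀ T : Fin (m + 1) → DirG G) ?_ ?_,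
    fun M => rfl, fun j M => ?_, fun j => ?_⟩
  · intro i j hij
    obtain ⟨j', rfl⟩ : ∃ j', j = Fin.succ j' := Fin.exists_succ_eq.2 (Fin.pos_iff_ne_zero.1
      ((Fin.zero_le i).trans_lt hij)) |>.imp fun _ h => h.symm
    refine Fin.cases (fun _ => ?_) (fun i' hij => ?_) i hij
    · rw [Fin.cons_zero, Fin.cons_succ, ← hg]
      exact h0 _
    · rw [Fin.cons_succ, Fin.cons_succ, ← hg, ← hg]
      exact (hc i' j' (Fin.succ_lt_succ_iff.1 hij)).map θ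
  · intro i j hij
    obtain ⟨j', rfl⟩ : ∃ j', j = Fin.succ j' := Fin.exists_succ_eq.2 (Fin.pos_iff_ne_zero.1
      ((Fin.zero_le i).trans_lt hij)) |>.imp fun _ h => h.symm
    refine Fin.cases (fun _ => ?_) (fun i' hij => ?_) i hij
    · intro x hx
      rw [Fin.cons_succ, ← hK] at hx
      obtain ⟨y, hy, rfl⟩ := hx
      exact h0 y
    · intro x hx
      rw [Fin.cons_succ, ← hK] at hx
      obtain ⟨y, hy, rfl⟩ := hx
      rw [Fin.cons_succ, ← hg]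
      exact (hcK i' j' (Fin.succ_lt_succ_iff.1 hij) y hy).map θ
  · change φ (θ (gS j ^ M)) = φ (T j).g ^ M
    rw [map_pow, map_pow, hg]
  · change (fun x => φ (θ x)) '' KS j = φ '' (T j).R.K
    rw [← hK, Set.image_image]

end row

/-! ### Wall 1, `r ≥ 3` -/

section wall1

variable {ι : Type} [Fintype ι] [DecidableEq ι] {k : Type} [NontriviallyNormedField k]
  {σ : k →+* k} {ε : k} {J₀ : Matrix ι ι k} {q : ℕ}
  {E : Type} [Group E] [TopologicalSpace E] [IsTopologicalGroup E]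
  [LocallyCompactSpace E] [SecondCountableTopology E] [MeasurableSpace E] [BorelSpace E]
  {i₁ : FormGroup σ (hyp (q + 3) ε J₀) →* E}

theorem chain1P [ProperSpace k] (hσc : Continuous σ) (hσ : ∀ x, σ (σ x) = x)
    (hε : ε * ε = 1) (hσε : σ ε = ε) (hι : Continuous i₁)
    (hp : ∀ C : Set E, IsCompact C → ∃ C' : Set (FormGroup σ (hyp (q + 3) ε J₀)),
      IsCompact C' ∧ i₁ ⁻¹' C ⊆ C')
    {w : k} (hw1 : 1 < ‖w‖) (hw : w ≠ 0) (hσw : σ w = w)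
    {g₀ : FormGroup σ (hyp (q + 3) ε J₀)} {d₀ : Idx (q + 3) ι → k}
    (hg₀ : g₀.1.1 = Matrix.diagonal d₀) (hd : ∀ x y : Idx (q + 2) ι, d₀ (sh x) = d₀ (sh y))
    (hlt : ‖d₀ (Sum.inl (Sum.inl 1))‖ < ‖d₀ (Sum.inl (Sum.inl 0))‖) :
    ∀ g₁ : FormGroup σ (hyp (q + 3) ε J₀), g₁ = g₀ ∨ g₁ = g₀⁻¹ →
    ∃ (b : Fin (q + 3) → ℕ → E) (𝒦 : Fin (q + 3) → Set E),
      GChain (fun K : Set E => IsCompact K) (PingT E) (q + 3) b 𝒦 ∧
      (∀ M, b 0 M = i₁ g₁ ^ M) ∧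
      (∀ j M, (i₁.comp (lb σ ε J₀ (q + 2))) (gS1 σ ε J₀ q hw hσw j ^ M) = b j.succ M) ∧
      ∀ j, (i₁.comp (lb σ ε J₀ (q + 2))) '' (fRow q J₀ hσc hσ hε hσε j).K = 𝒦 j.succ := by
  have h0 : ra (q + 1) ι ⟨0, by omega⟩ = (Sum.inl (Sum.inl 0) : Idx (q + 3) ι) := by
    unfold ra
    rw [if_neg (by simp)]
    rfl
  have h0' : rb (q + 1) ι ⟨0, by omega⟩ = (Sum.inl (Sum.inl 1) : Idx (q + 3) ι) := by
    unfold rb
    rw [dif_neg (by simp)]
    rfl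
  obtain ⟨D₀, hD₀⟩ : ∃ D : DirG (FormGroup σ (hyp (q + 3) ε J₀)), D.g = g₀ :=
    ⟨{ i := _
       j := _
       R := fRow (q + 1) J₀ hσc hσ hε hσε ⟨0, by omega⟩
       g := g₀
       d := d₀
       hg := hg₀
       lt := by rw [h0, h0']; exact hlt }, rfl⟩
  have hcm : ∀ s, Commute g₀ (lb σ ε J₀ (q + 2) s) := comm_lb hg₀ hd
  intro g₁ hg₁
  obtain ⟨D₁, hD₁⟩ : ∃ D : DirG (FormGroup σ (hyp (q + 3) ε J₀)), D.g = g₁ := by
    rcases hg₁ with rfl | rfl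
    · exact ⟨D₀, hD₀⟩
    · exact ⟨D₀.inv, by rw [← hD₀]; rfl⟩
  have hcm₁ : ∀ s, Commute D₁.g (lb σ ε J₀ (q + 2) s) := by
    intro s
    rw [hD₁]
    rcases hg₁ with rfl | rfl
    · exact hcm s
    · exact (hcm s).inv_left
  obtain ⟨b, 𝒦, h1, h2, h3, h4⟩ := gchain_consP hι hp D₁ hcm₁
    (fun j : Fin (q + 2) => fDir (q + 1) J₀ hσc hσ hε hσε hw1 hw hσw j.succ)
    (gS := gS1 σ ε J₀ q hw hσw) (KS := fun j => (fRow q J₀ hσc hσ hε hσε j).K)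
    (fun j => by
      change lb σ ε J₀ (q + 2) (tF σ ε J₀ (q + 2) hw hσw (lam q j)) = _
      rw [lb_tF, lam_cons]
      rfl)
    (fun j => lb_K q hσc hσ hε hσε j) (fun i j _ => tF_comm (q + 2) hw hσw (lam q i) (lam q j))
    (fun i j hij x hx => tF_up q hσc hσ hε hσε hw hσw hij hx)
  exact ⟨b, 𝒦, h1, fun M => by rw [h2, hD₁], h3, h4⟩

/-- **Wall 1**: `z = 1` or `z = -1`. -/
theorem chain_w1P [ProperSpace k] (hσc : Continuous σ) (hσ : ∀ x, σ (σ x) = x)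
    (hε : ε * ε = 1) (hσε : σ ε = ε) (hι : Continuous i₁)
    (hp : ∀ C : Set E, IsCompact C → ∃ C' : Set (FormGroup σ (hyp (q + 3) ε J₀)),
      IsCompact C' ∧ i₁ ⁻¹' C ⊆ C')
    {w : k} (hw1 : ‖w‖ < 1) (hw : w ≠ 0) (hσw : σ w = w) (hw' : w⁻¹ ≠ 0) (hσw' : σ w⁻¹ = w⁻¹)
    {z : ℤ} (hz : z = 1 ∨ z = -1) :
    ∃ (b : Fin (q + 3) → ℕ → E) (𝒦 : Fin (q + 3) → Set E),
      GChain (fun K : Set E => IsCompact K) (PingT E) (q + 3) b 𝒦 ∧
      (∀ M, b 0 M = i₁ (tF σ ε J₀ (q + 3) hw hσw (Pi.single 0 z)) ^ M) ∧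
      (∀ j M, (i₁.comp (lb σ ε J₀ (q + 2))) (gS1 σ ε J₀ q hw' hσw' j ^ M) = b j.succ M) ∧
      ∀ j, (i₁.comp (lb σ ε J₀ (q + 2))) '' (fRow q J₀ hσc hσ hε hσε j).K = 𝒦 j.succ := by
  have hn : 0 < ‖w‖ := norm_pos_iff.2 hw
  have hw1' : 1 < ‖w⁻¹‖ := by
    rw [norm_inv]
    exact (one_lt_inv₀ hn).2 hw1
  refine chain1P hσc hσ hε hσε hι hp hw1' hw' hσw'
    (g₀ := tF σ ε J₀ (q + 3) hw hσw (Pi.single 0 (-1)))
    (d₀ := dgF (q + 3) ι w (Pi.single 0 (-1))) rfl (fun x y => ?_) ?_ _ ?_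
  · have h : ∀ x : Idx (q + 2) ι, dgF (q + 3) ι w (Pi.single 0 (-1)) (sh x) = 1 := by
      rintro ((x | x) | x)
      · simp [sh, dgF, Pi.single_eq_of_ne (Fin.succ_ne_zero x)]
      · simp [sh, dgF, Pi.single_eq_of_ne (Fin.succ_ne_zero x)]
      · simp [sh, dgF]
    rw [h, h]
  · have h1 : (1 : Fin (q + 3)) ≠ 0 := Fin.succ_ne_zero (n := q + 2) 0
    simp only [dgF, Sum.elim_inl, Pi.single_eq_of_ne h1, Pi.single_eq_same, zpow_zero, norm_one]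
    rw [_root_.zpow_neg, zpow_one]
    exact hw1'
  · rcases hz with rfl | rfl
    · right
      rw [tF_inv]
      congr 1
      rw [← Pi.single_neg, neg_neg]
    · left
      rfl

end wall1

/-! ### Wall `r` -/

section wallr

variable {ι : Type} [Fintype ι] [DecidableEq ι] {k : Type} [NontriviallyNormedField k]
  {σ : k →+* k} {ε : k} {J₀ : Matrix ι ι k} {q : ℕ}
  {E : Type} [Group E] [TopologicalSpace E] [IsTopologicalGroup E]
  [LocallyCompactSpace E] [SecondCountableTopology E] [MeasurableSpace E] [BorelSpace E]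
  {i₁ : FormGroup σ (hyp (q + 2) ε J₀) →* E}

theorem chainrP [ProperSpace k] (hσc : Continuous σ) (hσ : ∀ x, σ (σ x) = x)
    (hε : ε * ε = 1) (hσε : σ ε = ε) (hι : Continuous i₁)
    (hp : ∀ C : Set E, IsCompact C → ∃ C' : Set (FormGroup σ (hyp (q + 2) ε J₀)),
      IsCompact C' ∧ i₁ ⁻¹' C ⊆ C')
    {w : kˣ} (hw1 : ‖(w : k)‖ < 1)
    {g₀ : FormGroup σ (hyp (q + 2) ε J₀)} {d₀ : Idx (q + 2) ι → k}
    (hg₀ : g₀.1.1 = Matrix.diagonal d₀)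
    (h1 : ∀ i j : Fin (q + 2), d₀ (Sum.inl (Sum.inl i)) = d₀ (Sum.inl (Sum.inl j)))
    (h2 : ∀ i j : Fin (q + 2), d₀ (Sum.inl (Sum.inr i)) = d₀ (Sum.inl (Sum.inr j)))
    (hlt : ‖d₀ (Sum.inl (Sum.inr 0))‖ < ‖d₀ (Sum.inl (Sum.inl 0))‖) :
    ∀ g₁ : FormGroup σ (hyp (q + 2) ε J₀), g₁ = g₀ ∨ g₁ = g₀⁻¹ →
    ∃ (b : Fin (q + 2) → ℕ → E) (𝒦 : Fin (q + 2) → Set E),
      GChain (fun K : Set E => IsCompact K) (PingT E) (q + 2) b 𝒦 ∧
      (∀ M, b 0 M = i₁ g₁ ^ M) ∧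
      (∀ j M, (i₁.comp (lv σ ε J₀ hσ (q + 2))) (bS w j M) = b j.succ M) ∧
      ∀ j, (i₁.comp (lv σ ε J₀ hσ (q + 2))) '' (KS k (m := q + 1) j) = 𝒦 j.succ := by
  have hw1' : 1 < ‖((w⁻¹ : kˣ) : k)‖ := by
    rw [Units.val_inv_eq_inv_val, norm_inv]
    exact (one_lt_inv₀ (norm_pos_iff.2 w.ne_zero)).2 hw1
  have hq1 : q + 1 < q + 2 := by omega
  have h0 : ra q ι ⟨q + 1, hq1⟩ = (Sum.inl (Sum.inl ⟨q, by omega⟩) : Idx (q + 2) ι) := by
    unfold ra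
    rw [if_pos rfl]
  have h0' : rb q ι ⟨q + 1, hq1⟩ = (Sum.inl (Sum.inr ⟨q + 1, by omega⟩) : Idx (q + 2) ι) := by
    unfold rb
    rw [dif_pos rfl]
  obtain ⟨D₀, hD₀⟩ : ∃ D : DirG (FormGroup σ (hyp (q + 2) ε J₀)), D.g = g₀ :=
    ⟨{ i := _
       j := _
       R := fRow q J₀ hσc hσ hε hσε ⟨q + 1, hq1⟩
       g := g₀
       d := d₀
       hg := hg₀
       lt := by rw [h0, h0', h1 _ 0, h2 _ 0]; exact hlt }, rfl⟩
  have hcm : ∀ s, Commute g₀ (lv σ ε J₀ hσ (q + 2) s) := comm_lv hσ hg₀ h1 h2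
  intro g₁ hg₁
  obtain ⟨D₁, hD₁⟩ : ∃ D : DirG (FormGroup σ (hyp (q + 2) ε J₀)), D.g = g₁ := by
    rcases hg₁ with rfl | rfl
    · exact ⟨D₀, hD₀⟩
    · exact ⟨D₀.inv, by rw [← hD₀]; rfl⟩
  have hcm₁ : ∀ s, Commute D₁.g (lv σ ε J₀ hσ (q + 2) s) := by
    intro s
    rw [hD₁]
    rcases hg₁ with rfl | rfl
    · exact hcm s
    · exact (hcm s).inv_left
  obtain ⟨b, 𝒦, k1, k2, k3, k4⟩ := gchain_consP hι hp D₁ hcm₁
    (fun j : Fin (q + 1) => lDir ε J₀ hσc hσ hw1' (w⁻¹).ne_zero j)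
    (gS := fun j => (tor (q + 1) (w⁻¹).ne_zero j.castSucc : GG k (q + 1)))
    (KS := fun j => KS k (m := q + 1) j)
    (fun j => rfl)
    (fun j => lv_K hσc hσ _) (fun i j _ => tor_comm (q + 1) (w⁻¹).ne_zero i.castSucc j.castSucc)
    (fun i j hij x hx => tor_commKS w hij hx)
  exact ⟨b, 𝒦, k1, fun M => by rw [k2, hD₁], k3, k4⟩

/-- **Wall `r`**: `z = 1` or `z = -1`. -/
theorem chain_wrP [ProperSpace k] (hσc : Continuous σ) (hσ : ∀ x, σ (σ x) = x)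
    (hε : ε * ε = 1) (hσε : σ ε = ε) (hι : Continuous i₁)
    (hp : ∀ C : Set E, IsCompact C → ∃ C' : Set (FormGroup σ (hyp (q + 2) ε J₀)),
      IsCompact C' ∧ i₁ ⁻¹' C ⊆ C')
    (w : kˣ) (hw1 : ‖(w : k)‖ < 1) (hσw : σ (w : k) = w) {z : ℤ} (hz : z = 1 ∨ z = -1) :
    ∃ (b : Fin (q + 2) → ℕ → E) (𝒦 : Fin (q + 2) → Set E),
      GChain (fun K : Set E => IsCompact K) (PingT E) (q + 2) b 𝒦 ∧
      (∀ M, b 0 M = i₁ (tF σ ε J₀ (q + 2) w.ne_zero hσw fun _ => z) ^ M) ∧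
      (∀ j M, (i₁.comp (lv σ ε J₀ hσ (q + 2))) (bS w j M) = b j.succ M) ∧
      ∀ j, (i₁.comp (lv σ ε J₀ hσ (q + 2))) '' (KS k (m := q + 1) j) = 𝒦 j.succ := by
  have hn : 0 < ‖(w : k)‖ := norm_pos_iff.2 w.ne_zero
  refine chainrP hσc hσ hε hσε hι hp hw1
    (g₀ := tF σ ε J₀ (q + 2) w.ne_zero hσw fun _ => -1)
    (d₀ := dgF (q + 2) ι (w : k) fun _ => -1) rfl (fun i j => rfl) (fun i j => rfl) ?_ _ ?_
  · simp only [dgF, Sum.elim_inl, Sum.elim_inr, neg_neg, zpow_one, _root_.zpow_neg_one, norm_inv]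
    exact hw1.trans ((one_lt_inv₀ hn).2 hw1)
  · rcases hz with rfl | rfl
    · right
      rw [tF_inv]
      rfl
    · left
      rfl

end wallr

/-! ### Wall 1, `r = 2` (symplectic and unitary) -/

section w12

variable {ι : Type} [Fintype ι] [DecidableEq ι] {k : Type} [NontriviallyNormedField k]
  {σ : k →+* k} {ε : k} {J₀ : Matrix ι ι k}
  {E : Type} [Group E] [TopologicalSpace E] [IsTopologicalGroup E]
  [LocallyCompactSpace E] [SecondCountableTopology E] [MeasurableSpace E] [BorelSpace E]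
  {i₁ : FormGroup σ (hyp 2 ε J₀) →* E}

/-- **Wall 1 in Witt index 2**: `z = 1` or `z = -1`; `t₀` with `σ t₀ = - ε t₀` (symplectic: `1`). -/
theorem chain_w1L [ProperSpace k] (hε : ε ≠ 0) (hι : Continuous i₁)
    (hp : ∀ C : Set E, IsCompact C → ∃ C' : Set (FormGroup σ (hyp 2 ε J₀)),
      IsCompact C' ∧ i₁ ⁻¹' C ⊆ C')
    {t₀ : k} (ht₀ : t₀ ≠ 0) (hσt : σ t₀ = -ε * t₀)
    {w : k} (hw1 : ‖w‖ < 1) (hw : w ≠ 0) (hσw : σ w = w) {z : ℤ} (hz : z = 1 ∨ z = -1) :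
    ∃ (b : Fin 2 → ℕ → E) (𝒦 : Fin 2 → Set E),
      GChain (fun K : Set E => IsCompact K) (PingT E) 2 b 𝒦 ∧
      (∀ M, b 0 M = i₁ (tF σ ε J₀ 2 hw hσw (Pi.single 0 z)) ^ M) := by
  obtain ⟨R₁, ha₁, hb₁, hc₁⟩ := exists_longF hε J₀ (1 : Fin 2) ht₀ hσt hw hw1 hσw
  have hn : 0 < ‖w‖ := norm_pos_iff.2 hw
  have hwi : ‖w‖ < ‖w⁻¹‖ := by
    rw [norm_inv]
    exact hw1.trans ((one_lt_inv₀ hn).2 hw1)
  obtain ⟨g₁, hg₁⟩ : ∃ g₁ : FormGroup σ (hyp 2 ε J₀), g₁ = tF σ ε J₀ 2 hw hσw (Pi.single 1 (-1)) :=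
    ⟨_, rfl⟩
  obtain ⟨g₀, hg₀⟩ : ∃ g₀ : FormGroup σ (hyp 2 ε J₀), g₀ = tF σ ε J₀ 2 hw hσw (Pi.single 0 z) :=
    ⟨_, rfl⟩
  have hd1 : g₁.1.1 = Matrix.diagonal (dgF 2 ι w (Pi.single 1 (-1))) := by rw [hg₁]; rfl
  have hd0 : g₀.1.1 = Matrix.diagonal (dgF 2 ι w (Pi.single 0 z)) := by rw [hg₀]; rfl
  have k1 : PPs (fun N => i₁ g₁ ^ N) (i₁ '' R₁.K) := by
    refine pps_rowT R₁ ha₁ hb₁ hd1 ?_ i₁ hι hp
    simp only [dgF, Sum.elim_inl, Sum.elim_inr, Pi.single_eq_same, neg_neg, zpow_one,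
      _root_.zpow_neg_one]
    exact hwi
  obtain ⟨K₀, k0⟩ : ∃ K₀, PPs (fun N => i₁ g₀ ^ N) K₀ := by
    rcases hz with rfl | rfl
    · obtain ⟨R₀, ha₀, hb₀, hc₀⟩ := exists_longF' hε J₀ (0 : Fin 2) ht₀ hσt hw hw1 hσw
      refine ⟨_, pps_rowT R₀ ha₀ hb₀ hd0 ?_ i₁ hι hp⟩
      simp only [dgF, Sum.elim_inl, Sum.elim_inr, Pi.single_eq_same, zpow_one,
        _root_.zpow_neg_one]
      exact hwi
    · obtain ⟨R₀, ha₀, hb₀, hc₀⟩ := exists_longF hε J₀ (0 : Fin 2) ht₀ hσt hw hw1 hσw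
      refine ⟨_, pps_rowT R₀ ha₀ hb₀ hd0 ?_ i₁ hι hp⟩
      simp only [dgF, Sum.elim_inl, Sum.elim_inr, Pi.single_eq_same, neg_neg, zpow_one,
        _root_.zpow_neg_one]
      exact hwi
  have hcomm : Commute g₀ g₁ := by
    rw [hg₀, hg₁]
    exact tF_comm 2 hw hσw _ _
  have hcK : ∀ x ∈ R₁.K, Commute g₀ x := fun x hx => by
    refine hc₁ g₀ _ hd0 ?_ x hx
    have h1 : (1 : Fin 2) ≠ 0 := by decide
    simp only [dgF, Sum.elim_inl, Sum.elim_inr, Pi.single_eq_of_ne h1, neg_zero]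
  refine ⟨![fun N => i₁ g₀ ^ N, fun N => i₁ g₁ ^ N], ![K₀, i₁ '' R₁.K], gchain_pps ?_ ?_ ?_,
    fun M => by rw [← hg₀]; rfl⟩
  · intro j
    fin_cases j
    · exact k0
    · exact k1
  · intro i j hij N M
    fin_cases i <;> fin_cases j <;> first | exact absurd hij (by decide) | skip
    exact (hcomm.map i₁).pow_pow N M
  · intro i j hij N x hx
    fin_cases i <;> fin_cases j <;> first | exact absurd hij (by decide) | skip
    obtain ⟨y, hy, rfl⟩ := hx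
    exact ((hcK y hy).map i₁).pow_left N

end w12

end Vale.Agent.P092.H534.Ch
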