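import Vale.Agent.P092.H534.Sp.Nrm

/-!
P092 (helper534), TEAM P, stages 2 and 3, [CL-NRM]: the gap system of a target of Witt index at most
`r` (any `r`, any form, any local field), along functions `q : Γ → SL_N(k)` which are homomorphisms
modulo scalars.

`form_sysR`: two-sided comparison of ALL gap functions of a class with a bounded Cartan decomposition.
`gaps_phR`: the same for `q`; `two_or_mid`: if the sum of the gaps `≠ 1` and the sum of the gaps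
`≠ r` are large then two classes are large or a middle class is large.
-/

set_option linter.all false

namespace Vale.Agent.P092.H534.Ch

open Matrix
open Vale.Agent.P092.H933 (LocK BCart gsys_gl)
open Vale.Agent.P092.H515
open Vale.Agent.P092.H534.SpK
open Vale.Agent.P092.H337.NG (en m2 en_le_of)

section form
variable {G : Type} [Group G] {k : Type} [NontriviallyNormedField k]
  [ProperSpace k] {N q : ℕ} {m : G → Matrix (Fin N) (Fin N) k}

/-- **Isometry groups of forms of Witt index at most `q`**: the gauges, the `q` classes of gaps and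
the two-sided comparison with bounded Cartan decompositions. -/
theorem form_sysR (hk : LocK k) (hN : 0 < N) (h2q : 2 * q ≤ N)
    (hmul : ∀ g h, m (g * h) = m g * m h)
    {σ : k →+* k} (hσ : ∀ x, ‖σ x‖ = ‖x‖) {J : Matrix (Fin N) (Fin N) k} (hJ : J.det ≠ 0)
    (hform : ∀ g, m g * J * ((m g).map σ)ᵀ = J)
    (hiso : ∀ v : Fin (q + 1) → Fin N → k, LinearIndependent k v →
      ∃ i j, v i ⬝ᵥ (J *ᵥ (fun l => σ (v j l))) ≠ 0) :
    ∃ (I : Type) (_ : Fintype I) (gp : I → G → ℝ) (w : G → ℝ) (cl : I → Fin q), GSys gp w ∧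
      Function.Surjective cl ∧
      (∀ R : ℝ, ∃ R' : ℝ, ∀ g, w g ≤ R → ∀ i j, ‖m g i j‖ ≤ R') ∧
      ∃ c C D : ℝ, 0 < c ∧ ∀ g, ∃ κ κi κ' κi' a, Dec C (m g) κ κi κ' κi' a ∧
        (∀ i : Fin N, q ≤ i → |Real.log ‖a i‖| ≤ D ∨ N < (i : ℕ) + 1 + q) ∧
        (∀ i : Fin N, |Real.log ‖a i‖ + Real.log ‖a (Fin.rev i)‖| ≤ D) ∧
        (∀ i : Fin N, q ≤ i → Real.log ‖a i‖ ≤ D) ∧
        ∀ x : I, |gp x g - c * (Real.log ‖a ⟨cl x, by have := (cl x).2; omega⟩‖ -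
          Real.log ‖a ⟨(cl x : ℕ) + 1, by have := (cl x).2; omega⟩‖)| ≤ D := by
  obtain ⟨gp, w, c, C, hc, hs, hw, hcar⟩ := gsys_gl hk hN hmul
    (fun g => norm_det_form hσ hJ (hform g))
  have hC0 : 0 ≤ C := by
    obtain ⟨κ, κi, κ', κi', a, -, -, h1, -⟩ := hcar 1
    exact (norm_nonneg _).trans (h1 ⟨0, hN⟩ ⟨0, hN⟩).1
  have hdec : ∀ g, ∃ (κ κi κ' κi' : Matrix (Fin N) (Fin N) k) (a : Fin N → k),
      Dec C (m g) κ κi κ' κi' a ∧ ∀ j : Fin (N - 1),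
        |gp j g - c * (Real.log ‖a ⟨j, by have := j.2; omega⟩‖ -
          Real.log ‖a ⟨(j : ℕ) + 1, by have := j.2; omega⟩‖)| ≤ C := by
    intro g
    obtain ⟨κ, κi, κ', κi', a, h1, h2, h3, h4, h5, h6, h7⟩ := hcar g
    exact ⟨κ, κi, κ', κi', a, ⟨h1, h2, fun i j => (h3 i j).1, fun i j => (h3 i j).2.1,
      fun i j => (h3 i j).2.2.1, fun i j => (h3 i j).2.2.2, h6, h4, h5⟩, h7⟩
  -- bounds for the form
  obtain ⟨B, hB0, hB⟩ : ∃ B : ℝ, 0 ≤ B ∧ ∀ i j, ‖J i j‖ ≤ B := by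
    obtain ⟨B, hB0, hB⟩ := exists_le_all (I := Fin N × Fin N) fun p => ‖J p.1 p.2‖
    exact ⟨B, hB0, fun i j => hB (i, j)⟩
  obtain ⟨B', hB0', hB'⟩ : ∃ B : ℝ, 0 ≤ B ∧ ∀ i j, ‖J⁻¹ i j‖ ≤ B := by
    obtain ⟨B, hB0, hB⟩ := exists_le_all (I := Fin N × Fin N) fun p => ‖J⁻¹ p.1 p.2‖
    exact ⟨B, hB0, fun i j => hB (i, j)⟩
  have hJJ : J * J⁻¹ = 1 := Matrix.mul_nonsing_inv J (isUnit_iff_ne_zero.2 hJ)
  -- symmetry
  obtain ⟨C1, hC1⟩ : ∃ C1 : ℝ, C1 = (N * (N * (C * (N * (max B B' * C))))) *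
    (N * (N * ((N * (max B B' * C)) * C))) := ⟨_, rfl⟩
  obtain ⟨L1, hL1⟩ : ∃ L1 : ℝ, ∀ g κ κi κ' κi' a, Dec C (m g) κ κi κ' κi' a → ∀ i : Fin N,
      |Real.log ‖a i‖ + Real.log ‖a (Fin.rev i)‖| ≤ L1 := by
    refine ⟨Real.log C1, fun g κ κi κ' κi' a h i => ?_⟩
    obtain ⟨h1, h2⟩ := h.symm_le hC0 hσ hJJ (le_max_of_le_left hB0 : 0 ≤ max B B')
      (fun i j => (hB i j).trans (le_max_left _ _))
      (fun i j => (hB' i j).trans (le_max_right _ _)) (hform g) hC1 i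
    have hp1 : 0 < ‖a i‖ := norm_pos_iff.2 (h.ne i)
    have hp2 : 0 < ‖a (Fin.rev i)‖ := norm_pos_iff.2 (h.ne _)
    rw [← Real.log_mul hp1.ne' hp2.ne']
    have hp : 0 < ‖a i‖ * ‖a (Fin.rev i)‖ := mul_pos hp1 hp2
    have hCp : 0 < C1 := by
      by_contra hneg
      have := mul_nonpos_of_nonpos_of_nonneg (not_lt.1 hneg) hp.le
      linarith
    rw [abs_le]
    constructor
    · have h3 := Real.log_le_log one_pos h1
      rw [Real.log_one, Real.log_mul hCp.ne' hp.ne'] at h3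
      linarith
    · exact Real.log_le_log hp h2
  have hL10 : 0 ≤ L1 := by
    obtain ⟨κ, κi, κ', κi', a, h, -⟩ := hdec 1
    exact (abs_nonneg _).trans (hL1 1 κ κi κ' κi' a h ⟨0, hN⟩)
  -- boundedness beyond the Witt index
  obtain ⟨L2, hL20, hL2⟩ : ∃ L2 : ℝ, 0 ≤ L2 ∧ ∀ g κ κi κ' κi' a, Dec C (m g) κ κi κ' κi' a →
      ∀ i : Fin N, q ≤ i → Real.log ‖a i‖ ≤ L2 := by
    by_cases hq : q < N
    · obtain ⟨C2, hC2⟩ := exists_bound hq hσ hiso hC0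
      refine ⟨Real.log (max C2 1), Real.log_nonneg (le_max_right _ _),
        fun g κ κi κ' κi' a h i hi => ?_⟩
      refine Real.log_le_log (norm_pos_iff.2 (h.ne i)) ?_
      refine le_trans ?_ (le_max_left _ _)
      exact (h.anti (show (⟨q, hq⟩ : Fin N) ≤ i from hi)).trans (hC2 _ _ _ _ _ a h (hform g))
    · exact ⟨0, le_rfl, fun g κ κi κ' κi' a h i hi => absurd (lt_of_le_of_lt hi i.2) hq⟩
  -- the classes
  obtain ⟨e, he⟩ : ∃ e : {i : Fin (N - 1) // min (i : ℕ) (N - 2 - i) < q} ↪ Fin (N - 1),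
    e = Function.Embedding.subtype _ := ⟨_, rfl⟩
  have hgap : ∀ g (i : Fin (N - 1)), (¬ min (i : ℕ) (N - 2 - i) < q) →
      gp i g ≤ c * (2 * L2 + L1) + C := by
    intro g i hi
    obtain ⟨κ, κi, κ', κi', a, h, hg⟩ := hdec g
    have h1 := (abs_le.1 (hg i)).2
    have hi2 := i.2
    have h2 := hL2 g κ κi κ' κi' a h ⟨i, by omega⟩ (by simp only; omega)
    have h3 := hL2 g κ κi κ' κi' a h (Fin.rev ⟨(i : ℕ) + 1, by omega⟩) (by
      rw [Fin.val_rev]; simp only; omega)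
    have h4 := (abs_le.1 (hL1 g κ κi κ' κi' a h ⟨(i : ℕ) + 1, by omega⟩)).1
    have h5 : Real.log ‖a ⟨i, by omega⟩‖ - Real.log ‖a ⟨(i : ℕ) + 1, by omega⟩‖ ≤
      2 * L2 + L1 := by linarith
    have h6 := mul_le_mul_of_nonneg_left h5 hc.le
    linarith
  obtain ⟨D, hD⟩ : ∃ D : ℝ, D = C + 2 * c * L1 + 2 * L2 + 2 * L1 := ⟨_, rfl⟩
  have hD1 : C ≤ D := by rw [hD]; have := mul_nonneg hc.le hL10; linarith
  have hD2 : L2 + L1 ≤ D := by rw [hD]; have := mul_nonneg hc.le hL10; linarith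
  have hD3 : C + 2 * c * L1 ≤ D := by rw [hD]; linarith
  refine ⟨{i : Fin (N - 1) // min (i : ℕ) (N - 2 - i) < q}, inferInstance, fun j => gp (e j), w,
    fun j => ⟨min (j : Fin (N - 1)) (N - 2 - j), j.2⟩, hs.restrict e
      (R0 := c * (2 * L2 + L1) + C) (fun j hj g => ?_), fun i => ?_, hw, c, C, D, hc,
      fun g => ?_⟩
  · refine hgap g j fun h => hj ⟨j, h⟩ ?_
    rw [he]
    rfl
  · have hi := i.2
    exact ⟨⟨⟨i, by omega⟩, by simp only; omega⟩, Fin.ext (by simp only; omega)⟩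
  · obtain ⟨κ, κi, κ', κi', a, h, hg⟩ := hdec g
    refine ⟨κ, κi, κ', κi', a, h, fun i hi => ?_, fun i => (hL1 g κ κi κ' κi' a h i).trans
      (by linarith), fun i hi => (hL2 g κ κi κ' κi' a h i hi).trans (by linarith),
      fun x => ?_⟩
    · by_cases hi' : N < (i : ℕ) + 1 + q
      · exact Or.inr hi'
      · left
        have h1 := hL2 g κ κi κ' κi' a h i hi
        have h2 := hL2 g κ κi κ' κi' a h (Fin.rev i) (by rw [Fin.val_rev]; omega)
        have h3 := (abs_le.1 (hL1 g κ κi κ' κi' a h i)).1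
        rw [abs_le]
        constructor <;> linarith
    · obtain ⟨j, hjq⟩ := x
      have hj2 := j.2
      have h1 := hg j
      rw [he]
      change |gp j g - c * (Real.log ‖a ⟨min (j : ℕ) (N - 2 - (j : ℕ)), _⟩‖ -
        Real.log ‖a ⟨min (j : ℕ) (N - 2 - (j : ℕ)) + 1, _⟩‖)| ≤ D
      by_cases hlt : (j : ℕ) ≤ N - 2 - j
      · have e1 : min (j : ℕ) (N - 2 - j) = j := min_eq_left hlt
        simp only [e1]
        exact h1.trans hD1
      · have e1 : min (j : ℕ) (N - 2 - j) = N - 2 - j := min_eq_right (by omega)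
        simp only [e1]
        have h3 := abs_le.1 (hL1 g κ κi κ' κi' a h ⟨j, by omega⟩)
        have h4 := abs_le.1 (hL1 g κ κi κ' κi' a h ⟨(j : ℕ) + 1, by omega⟩)
        have r1 : Fin.rev (⟨j, by omega⟩ : Fin N) = ⟨N - 2 - j + 1, by omega⟩ := by
          ext; rw [Fin.val_rev]; simp only; omega
        have r2 : Fin.rev (⟨(j : ℕ) + 1, by omega⟩ : Fin N) = ⟨N - 2 - j, by omega⟩ := by
          ext; rw [Fin.val_rev]; simp only; omega
        rw [r1] at h3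
        rw [r2] at h4
        have h5 : |c * (Real.log ‖a ⟨j, by omega⟩‖ - Real.log ‖a ⟨(j : ℕ) + 1, by omega⟩‖) -
            c * (Real.log ‖a ⟨N - 2 - j, by omega⟩‖ - Real.log ‖a ⟨N - 2 - j + 1, by omega⟩‖)| ≤
            2 * c * L1 := by
          rw [← mul_sub, abs_mul, abs_of_pos hc]
          have : |Real.log ‖a ⟨j, by omega⟩‖ - Real.log ‖a ⟨(j : ℕ) + 1, by omega⟩‖ -
              (Real.log ‖a ⟨N - 2 - j, by omega⟩‖ - Real.log ‖a ⟨N - 2 - j + 1, by omega⟩‖)| ≤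
              2 * L1 := by
            rw [abs_le]
            constructor <;> linarith
          calc _ ≤ c * (2 * L1) := mul_le_mul_of_nonneg_left this hc.le
            _ = _ := by ring
        calc _ = |(gp j g - c * (Real.log ‖a ⟨j, by omega⟩‖ -
              Real.log ‖a ⟨(j : ℕ) + 1, by omega⟩‖)) +
              (c * (Real.log ‖a ⟨j, by omega⟩‖ - Real.log ‖a ⟨(j : ℕ) + 1, by omega⟩‖) -
              c * (Real.log ‖a ⟨N - 2 - j, by omega⟩‖ -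
                Real.log ‖a ⟨N - 2 - j + 1, by omega⟩‖))| := by ring_nf
          _ ≤ C + 2 * c * L1 := (abs_add_le _ _).trans (add_le_add h1 h5)
          _ ≤ D := hD3

end form

/-! ### Along homomorphisms modulo scalars -/

section ph
variable {Γ : Type} [Group Γ] {k : Type} [NontriviallyNormedField k] [ProperSpace k] {N r : ℕ}

/-- The `i`-th gap of the singular values `a`. -/
noncomputable def gapA (h2r : 2 * r ≤ N) (a : Fin N → k) (i : Fin r) : ℝ :=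
  Real.log ‖a ⟨i, by have := i.2; omega⟩‖ - Real.log ‖a ⟨(i : ℕ) + 1, by have := i.2; omega⟩‖

/-- telescoping: a large difference contains a large gap -/
theorem exists_gapA (h2r : 2 * r ≤ N) (a : Fin N → k) {i j : ℕ} (hij : i ≤ j) (hj : j ≤ r)
    (hr : 0 < r) {R' : ℝ}
    (h : (j - i : ℕ) * R' < Real.log ‖a ⟨i, by omega⟩‖ - Real.log ‖a ⟨j, by omega⟩‖) :
    ∃ l : Fin r, i ≤ l ∧ (l : ℕ) < j ∧ R' < gapA h2r a l := by
  induction j, hij using Nat.le_induction with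
  | base => simp at h
  | succ j hij ih =>
    by_cases h1 : R' < gapA h2r a ⟨j, by omega⟩
    · exact ⟨⟨j, by omega⟩, hij, Nat.lt_succ_self j, h1⟩
    · have h2 : gapA h2r a ⟨j, by omega⟩ ≤ R' := not_lt.1 h1
      unfold gapA at h2
      simp only at h2
      have e : ((j + 1 - i : ℕ) : ℝ) = ((j - i : ℕ) : ℝ) + 1 := by
        rw [Nat.succ_sub hij]
        push_cast
        ring
      rw [e] at h
      obtain ⟨l, hl1, hl2, hl3⟩ := ih (by omega) (by nlinarith)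
      exact ⟨l, hl1, by omega, hl3⟩

/-- **The gap system of a function `q` which is a homomorphism modulo scalars and preserves a form of
Witt index at most `r`.** -/
theorem gaps_phR (hk : LocK k) (hN : 0 < N) (h2r : 2 * r ≤ N) {q : Γ → SpecialLinearGroup (Fin N) k}
    (hq : PHm q) {σ : k →+* k} (hσ : ∀ x, ‖σ x‖ = ‖x‖) {J : Matrix (Fin N) (Fin N) k}
    (hJ : J.det ≠ 0) (hform : ∀ γ, (q γ).1 * J * ((q γ).1.map σ)ᵀ = J)
    (hiso : ∀ v : Fin (r + 1) → Fin N → k, LinearIndependent k v →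
      ∃ i j, v i ⬝ᵥ (J *ᵥ (fun l => σ (v j l))) ≠ 0)
    (disc : ∀ C : ℝ, {γ : Γ | en (q γ).1 ≤ C}.Finite) :
    ∃ (I : Type) (_ : Fintype I) (gp : I → Γ → ℝ) (w : Γ → ℝ) (cl : I → Fin r), GSys gp w ∧
      Function.Surjective cl ∧
      (∀ R : ℝ, ∃ R' : ℝ, ∀ i j, cl i = cl j → ∀ g, gp i g ≤ R → gp j g ≤ R') ∧
      (∀ R : ℝ, {g | w g ≤ R}.Finite) ∧
      ∃ c C D : ℝ, 0 < c ∧ ∀ γ, ∃ κ κi κ' κi' a, Dec C (q γ).1 κ κi κ' κi' a ∧
        (∀ i : Fin N, |Real.log ‖a i‖ + Real.log ‖a (Fin.rev i)‖| ≤ D) ∧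
        (∀ i : Fin N, r ≤ i → Real.log ‖a i‖ ≤ D) ∧
        ∀ x : I, |gp x γ - c * gapA h2r a (cl x)| ≤ D := by
  obtain ⟨X, hX⟩ : ∃ X : Subgroup (SpecialLinearGroup (Fin N) k), X = H303.FormGroup σ J := ⟨_, rfl⟩
  have hXm : ∀ g ∈ X, g.1 * J * (g.1.map σ)ᵀ = J := fun g hg => by rw [hX] at hg; exact hg
  have hqX : ∀ γ, q γ ∈ X := fun γ => by rw [hX]; exact hform γ
  obtain ⟨I, hI, gp, w, cl, hs, hsur, hw, c, C, D, hc, hd⟩ := form_sysR (G := X)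
    (m := fun g => g.1.1) (q := r) hk hN h2r (fun g h => rfl) hσ hJ
    (fun g => hXm g.1 g.2) hiso
  obtain ⟨s, hs'⟩ : ∃ s : Γ → X, s = fun γ => ⟨q γ, hqX γ⟩ := ⟨_, rfl⟩
  have hsq : ∀ γ, (s γ).1 = q γ := fun γ => by rw [hs']
  have hph : ∀ a b, ∃ z ∈ scZ X, s (a * b) = z * (s a * s b) := by
    intro a b
    obtain ⟨e, he⟩ := hq a b
    refine ⟨s (a * b) * (s a * s b)⁻¹, ⟨e, ?_⟩, by group⟩
    change (s (a * b)).1.1 * (((s a).1 * (s b).1)⁻¹).1 = _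
    have e1 : (q a * q b).1 * ((q a * q b)⁻¹).1 = 1 :=
      congrArg Subtype.val (mul_inv_cancel (q a * q b))
    rw [hsq, hsq, hsq, he, Matrix.smul_mul, e1]
  obtain ⟨w', hs2, hw'⟩ := gsys_ph hs (scZ X) (scZ_center X)
    (scalar_fin hN X _ fun z hz => hz) s hph
  refine ⟨I, hI, fun j γ => gp j (s γ), w', cl, hs2, hsur, fun R => ?_, fun R => ?_, c, C, D, hc,
    fun γ => ?_⟩
  · refine ⟨R + 2 * D, fun i j hij g hg => ?_⟩
    obtain ⟨κ, κi, κ', κi', a, -, -, -, -, h1⟩ := hd (s g)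
    have h2 := (abs_le.1 (h1 i)).1
    have h3 := (abs_le.1 (h1 j)).2
    simp only [hij] at h2
    have hg' : gp i (s g) ≤ R := hg
    change gp j (s g) ≤ _
    linarith
  · obtain ⟨R', hR'⟩ := hw R
    refine (disc (max R' 0)).subset fun γ hγ => en_le_of (le_max_right _ _) fun i j => ?_
    have h1 := hR' (s γ) ((hw' γ).trans hγ) i j
    rw [hsq] at h1
    exact h1.trans (le_max_left _ _)
  · obtain ⟨κ, κi, κ', κi', a, h1, -, h2, h3, h4⟩ := hd (s γ)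
    rw [hsq] at h1
    exact ⟨κ, κi, κ', κi', a, h1, h2, h3, h4⟩

/-- **Two classes or a middle class**: if `log a_1` (0-based; the gaps `≠ 1`) and
`log a_0 - log a_(r-1)` (the gaps `≠ r`) are large. -/
theorem two_or_mid (h2 : 2 ≤ r) (h2r : 2 * r ≤ N) {I : Type} {gp : I → Γ → ℝ} {cl : I → Fin r}
    (hsur : Function.Surjective cl) {c C D : ℝ} (hc : 0 < c) {q : Γ → SpecialLinearGroup (Fin N) k}
    (hd : ∀ γ, ∃ κ κi κ' κi' a, Dec C (q γ).1 κ κi κ' κi' a ∧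
        (∀ i : Fin N, |Real.log ‖a i‖ + Real.log ‖a (Fin.rev i)‖| ≤ D) ∧
        (∀ i : Fin N, r ≤ i → Real.log ‖a i‖ ≤ D) ∧
        ∀ x : I, |gp x γ - c * gapA h2r a (cl x)| ≤ D)
    {A B : Γ → ℝ} {K₁ K₂ K₃ K₄ : ℝ} (hK₁ : 0 < K₁) (hK₃ : 0 < K₃)
    (hA : ∀ γ κ κi κ' κi' a, Dec C (q γ).1 κ κi κ' κi' a →
      A γ ≤ K₁ * Real.log ‖a ⟨1, by omega⟩‖ + K₂)
    (hB : ∀ γ κ κi κ' κi' a, Dec C (q γ).1 κ κi κ' κi' a →
      B γ ≤ K₃ * (Real.log ‖a ⟨0, by omega⟩‖ - Real.log ‖a ⟨r - 1, by omega⟩‖) + K₄) (R : ℝ) :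
    ∃ ρ : ℝ, ∀ γ, ρ < A γ → ρ < B γ →
      (∃ x y : I, cl x ≠ cl y ∧ R ≤ gp x γ ∧ R ≤ gp y γ) ∨
      ∃ x : I, (cl x : ℕ) ≠ 0 ∧ (cl x : ℕ) ≠ r - 1 ∧ R ≤ gp x γ := by
  obtain ⟨R', hR'⟩ : ∃ R' : ℝ, R' = (R + D) / c := ⟨_, rfl⟩
  have hgap : ∀ γ (a : Fin N → k), (∀ x : I, |gp x γ - c * gapA h2r a (cl x)| ≤ D) →
      ∀ l : Fin r, R' < gapA h2r a l → ∃ x : I, cl x = l ∧ R ≤ gp x γ := by
    intro γ a h l hl
    obtain ⟨x, hx⟩ := hsur l
    refine ⟨x, hx, ?_⟩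
    have h1 := (abs_le.1 (h x)).1
    rw [hx] at h1
    have h3 := mul_lt_mul_of_pos_left hl hc
    rw [hR', mul_div_cancel₀ _ hc.ne'] at h3
    linarith
  have hR0 := abs_nonneg R'
  have hD0 := abs_nonneg D
  refine ⟨max (K₁ * (r * |R'| + |D|) + K₂) (K₃ * (r * |R'| + |D|) + K₄), fun γ h1 h3 => ?_⟩
  obtain ⟨κ, κi, κ', κi', a, hdec, -, hD, hgp⟩ := hd γ
  have ha1 : r * |R'| + |D| < Real.log ‖a ⟨1, by omega⟩‖ := by
    have h5 := ((le_max_left _ _).trans_lt h1).trans_le (hA γ κ κi κ' κi' a hdec)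
    exact lt_of_mul_lt_mul_left (by linarith) hK₁.le
  have ha0 : r * |R'| + |D| < Real.log ‖a ⟨0, by omega⟩‖ - Real.log ‖a ⟨r - 1, by omega⟩‖ := by
    have h5 := ((le_max_right _ _).trans_lt h3).trans_le (hB γ κ κi κ' κi' a hdec)
    exact lt_of_mul_lt_mul_left (by linarith) hK₃.le
  have hRR := le_abs_self R'
  obtain ⟨i, hi1, -, hi3⟩ := exists_gapA h2r a (i := 1) (j := r) (by omega) le_rfl (by omega)
    (R' := R') (by
      have e : ((r - 1 : ℕ) : ℝ) ≤ r := by exact_mod_cast Nat.sub_le r 1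
      have h5 := hD ⟨r, by omega⟩ le_rfl
      have h6 : ((r - 1 : ℕ) : ℝ) * R' ≤ r * |R'| := by
        calc ((r - 1 : ℕ) : ℝ) * R' ≤ ((r - 1 : ℕ) : ℝ) * |R'| :=
              mul_le_mul_of_nonneg_left hRR (Nat.cast_nonneg _)
          _ ≤ r * |R'| := mul_le_mul_of_nonneg_right e hR0
      have h7 := le_abs_self D
      linarith)
  obtain ⟨j, -, hj2, hj3⟩ := exists_gapA h2r a (i := 0) (j := r - 1) (by omega) (by omega)
    (by omega) (R' := R') (by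
      have e : ((r - 1 - 0 : ℕ) : ℝ) ≤ r := by exact_mod_cast (by omega : r - 1 - 0 ≤ r)
      have h6 : ((r - 1 - 0 : ℕ) : ℝ) * R' ≤ r * |R'| := by
        calc ((r - 1 - 0 : ℕ) : ℝ) * R' ≤ ((r - 1 - 0 : ℕ) : ℝ) * |R'| :=
              mul_le_mul_of_nonneg_left hRR (Nat.cast_nonneg _)
          _ ≤ r * |R'| := mul_le_mul_of_nonneg_right e hR0
      linarith)
  obtain ⟨x, hx, hx'⟩ := hgap γ a hgp i hi3
  obtain ⟨y, hy, hy'⟩ := hgap γ a hgp j hj3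
  by_cases hij : i = j
  · right
    refine ⟨x, ?_, ?_, hx'⟩
    · rw [hx]; omega
    · rw [hx, hij]; omega
  · left
    exact ⟨x, y, by rw [hx, hy]; exact hij, hx', hy'⟩

end ph

end Vale.Agent.P092.H534.Ch
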