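import Vale.Agent.P092.H534.Ch.Rows
import Vale.Agent.P092.H303.Form

/-!
P092 (helper534), TEAM P, stages 2 and 3, [NRM]: the long roots of symplectic and unitary groups
(letters of helper303 / helper714: `FormGroup σ J`, `hyp q ε J₀`).

`exists_long`: for every group `S` between the group generated by the long root groups of the pair
`i` and `SL`, a `RowT` with rows `e_i`, `e_-i` whose compact set commutes with all diagonal elements
`d` with `d e_i = d e_-i`; hypothesis: `σ t₀ = - ε t₀`, `t₀ ≠ 0` (so symplectic: `t₀ = 1`,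
unitary: any skew element) and an element `w` of the fixed field with `0 < |w| < 1`.
-/

set_option linter.all false

open Matrix Set Topology Filter

namespace Vale.Agent.P092.H534.Ch

open Vale.Agent.P092.H701 (RowPair HChain exists_pts)
open Vale.Agent.P092.H368.SN (tv tv_coe tv_add tv_zero tv_inv tv_sub tv_entry continuous_tv diag_tv)
open Vale.Agent.P092.H534.SpK
open Vale.Agent.P092.H303 (FormGroup mem_formGroup HypAt hyp hypAt_l hypAt_r Idx)

/-- long root elements of a form -/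
theorem tv_mem {k : Type} [NontriviallyNormedField k] {n : Type} [Fintype n] [DecidableEq n]
    {σ : k →+* k} {J : Matrix n n k} {a a' : n} {ω ω' : k} (ha : HypAt J a a' ω)
    (ha' : HypAt J a' a ω') (haa : a ≠ a') {t : k} (e : t * ω' + ω * σ t = 0) :
    tv haa t ∈ FormGroup σ J := by
  have hmap : ((Matrix.single a a' t).map σ)ᵀ = Matrix.single a' a (σ t) := by
    ext i j
    simp only [transpose_apply, map_apply, single_apply]
    by_cases hh : a = j ∧ a' = i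
    · rw [if_pos hh, if_pos ⟨hh.2, hh.1⟩]
    · rw [if_neg hh, if_neg (fun h => hh ⟨h.2, h.1⟩), map_zero]
  have hg : (tv haa t : SpecialLinearGroup n k).1 = 1 + Matrix.single a a' t := rfl
  have hgt : (((tv haa t : SpecialLinearGroup n k).1).map σ)ᵀ = 1 + Matrix.single a' a (σ t) := by
    have hadd : ∀ A B : Matrix n n k, (A + B).map σ = A.map σ + B.map σ := by
      intro A B; ext i j; simp
    rw [hg, hadd, transpose_add, hmap, Matrix.map_one σ (map_zero σ) (map_one σ), transpose_one]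
  rw [mem_formGroup, hgt, hg, Matrix.add_mul, Matrix.one_mul, ha'.mul_left, Matrix.mul_add,
    Matrix.mul_one, Matrix.add_mul, ha.mul_right, single_mul_single_of_ne _ _ _ _ haa, add_zero,
    add_assoc, ← single_add, e, single_zero, add_zero]

section hyp

variable {k : Type} [NontriviallyNormedField k] {ι : Type} [Fintype ι] [DecidableEq ι] {q : ℕ}

/-- the indices of the `i`-th hyperbolic pair are different -/
theorem pr_ne (i : Fin q) : (Sum.inl (Sum.inl i) : Idx q ι) ≠ Sum.inl (Sum.inr i) := by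
  intro h
  have := Sum.inl.inj h
  exact absurd this (by simp)

theorem long_up {σ : k →+* k} {ε : k} {J₀ : Matrix ι ι k} (i : Fin q) {t : k}
    (h : t * ε + σ t = 0) : tv (pr_ne (ι := ι) i) t ∈ FormGroup σ (hyp q ε J₀) :=
  tv_mem (hypAt_l q ε J₀ i) (hypAt_r q ε J₀ i) _ (by rw [one_mul]; exact h)

theorem long_lo {σ : k →+* k} {ε : k} {J₀ : Matrix ι ι k} (i : Fin q) {t : k}
    (h : t + ε * σ t = 0) : tv (pr_ne (ι := ι) i).symm t ∈ FormGroup σ (hyp q ε J₀) :=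
  tv_mem (hypAt_r q ε J₀ i) (hypAt_l q ε J₀ i) _ (by rw [mul_one]; exact h)

theorem exists_small {t w : k} (hw : ‖w‖ < 1) : ∃ M : ℕ, ‖t * w ^ M‖ ≤ 1 := by
  have h1 : Tendsto (fun m : ℕ => t * w ^ m) atTop (𝓝 (t * 0)) :=
    tendsto_const_nhds.mul (tendsto_pow_atTop_nhds_zero_of_norm_lt_one hw)
  rw [mul_zero] at h1
  have h2 := h1.norm
  rw [norm_zero] at h2
  obtain ⟨M, hM⟩ := (h2.eventually (ge_mem_nhds one_pos)).exists
  exact ⟨M, hM⟩

/-- **The long root rows.** -/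
theorem exists_long {σ : k →+* k} {ε : k} (hε : ε ≠ 0) (i : Fin q)
    {S : Subgroup (SpecialLinearGroup (Idx q ι) k)} {t₀ w : k} (ht₀ : t₀ ≠ 0)
    (hσt : σ t₀ = -ε * t₀) (hw0 : w ≠ 0) (hw : ‖w‖ < 1) (hσw : σ w = w)
    (hup : ∀ t, t * ε + σ t = 0 → tv (pr_ne (ι := ι) i) t ∈ S)
    (hlo : ∀ t, t + ε * σ t = 0 → tv (pr_ne (ι := ι) i).symm t ∈ S) :
    ∃ R : RowT S k (Idx q ι → k), (∀ x, R.ρ₁ x = x.1.1 (Sum.inl (Sum.inl i))) ∧
      (∀ x, R.ρ₂ x = x.1.1 (Sum.inl (Sum.inr i))) ∧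
      ∀ (g : S) (d : Idx q ι → k), g.1.1 = diagonal d →
        d (Sum.inl (Sum.inl i)) = d (Sum.inl (Sum.inr i)) → ∀ x ∈ R.K, Commute g x := by
  obtain ⟨M, hM⟩ := exists_small (t := t₀) hw
  obtain ⟨M', hM'⟩ := exists_small (t := t₀⁻¹) hw
  have hup' : ∀ m : ℕ, tv (pr_ne (ι := ι) i) (t₀ * w ^ M * w ^ m) ∈ S := fun m => hup _ (by
    rw [map_mul, map_mul, map_pow, map_pow, hσw, hσt]
    ring)
  have hlo' : ∀ m : ℕ, tv (pr_ne (ι := ι) i).symm (t₀⁻¹ * w ^ M' * w ^ m) ∈ S := fun m => hlo _ (by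
    rw [map_mul, map_mul, map_pow, map_pow, hσw, map_inv₀, hσt]
    field_simp
    ring)
  exact ⟨longT (pr_ne i) hw0 hw (mul_ne_zero ht₀ (pow_ne_zero _ hw0))
    (mul_ne_zero (inv_ne_zero ht₀) (pow_ne_zero _ hw0)) hM hM' hup' hlo', fun x => rfl,
    fun x => rfl, fun g d hg hd x hx => comm_longT (pr_ne i) hw0 hw _ _ hM hM' hup' hlo' hg hd hx⟩

/-- **The long root rows, the other order.** -/
theorem exists_long' {σ : k →+* k} {ε : k} (hε : ε ≠ 0) (i : Fin q)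
    {S : Subgroup (SpecialLinearGroup (Idx q ι) k)} {t₀ w : k} (ht₀ : t₀ ≠ 0)
    (hσt : σ t₀ = -ε * t₀) (hw0 : w ≠ 0) (hw : ‖w‖ < 1) (hσw : σ w = w)
    (hup : ∀ t, t * ε + σ t = 0 → tv (pr_ne (ι := ι) i) t ∈ S)
    (hlo : ∀ t, t + ε * σ t = 0 → tv (pr_ne (ι := ι) i).symm t ∈ S) :
    ∃ R : RowT S k (Idx q ι → k), (∀ x, R.ρ₁ x = x.1.1 (Sum.inl (Sum.inr i))) ∧
      (∀ x, R.ρ₂ x = x.1.1 (Sum.inl (Sum.inl i))) ∧
      ∀ (g : S) (d : Idx q ι → k), g.1.1 = diagonal d →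
        d (Sum.inl (Sum.inl i)) = d (Sum.inl (Sum.inr i)) → ∀ x ∈ R.K, Commute g x := by
  obtain ⟨M, hM⟩ := exists_small (t := t₀) hw
  obtain ⟨M', hM'⟩ := exists_small (t := t₀⁻¹) hw
  have hup' : ∀ m : ℕ, tv (pr_ne (ι := ι) i) (t₀ * w ^ M * w ^ m) ∈ S := fun m => hup _ (by
    rw [map_mul, map_mul, map_pow, map_pow, hσw, hσt]
    ring)
  have hlo' : ∀ m : ℕ, tv (pr_ne (ι := ι) i).symm (t₀⁻¹ * w ^ M' * w ^ m) ∈ S := fun m => hlo _ (by
    rw [map_mul, map_mul, map_pow, map_pow, hσw, map_inv₀, hσt]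
    field_simp
    ring)
  exact ⟨longT (pr_ne i).symm hw0 hw (mul_ne_zero (inv_ne_zero ht₀) (pow_ne_zero _ hw0))
    (mul_ne_zero ht₀ (pow_ne_zero _ hw0)) hM' hM hlo' hup', fun x => rfl,
    fun x => rfl, fun g d hg hd x hx =>
      comm_longT (pr_ne i).symm hw0 hw _ _ hM' hM hlo' hup' hg hd.symm hx⟩

/-- Long root rows of `FormGroup σ (hyp q ε J₀)`, the other order. -/
theorem exists_longF' {σ : k →+* k} {ε : k} (hε : ε ≠ 0) (J₀ : Matrix ι ι k) (i : Fin q)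
    {t₀ w : k} (ht₀ : t₀ ≠ 0) (hσt : σ t₀ = -ε * t₀) (hw0 : w ≠ 0) (hw : ‖w‖ < 1)
    (hσw : σ w = w) :
    ∃ R : RowT (FormGroup σ (hyp q ε J₀)) k (Idx q ι → k),
      (∀ x, R.ρ₁ x = x.1.1 (Sum.inl (Sum.inr i))) ∧
      (∀ x, R.ρ₂ x = x.1.1 (Sum.inl (Sum.inl i))) ∧
      ∀ (g : FormGroup σ (hyp q ε J₀)) (d : Idx q ι → k), g.1.1 = diagonal d →
        d (Sum.inl (Sum.inl i)) = d (Sum.inl (Sum.inr i)) → ∀ x ∈ R.K, Commute g x :=
  exists_long' hε i ht₀ hσt hw0 hw hσw (fun t h => long_up i h) (fun t h => long_lo i h)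

/-- Long root rows of `FormGroup σ (hyp q ε J₀)`. -/
theorem exists_longF {σ : k →+* k} {ε : k} (hε : ε ≠ 0) (J₀ : Matrix ι ι k) (i : Fin q)
    {t₀ w : k} (ht₀ : t₀ ≠ 0) (hσt : σ t₀ = -ε * t₀) (hw0 : w ≠ 0) (hw : ‖w‖ < 1)
    (hσw : σ w = w) :
    ∃ R : RowT (FormGroup σ (hyp q ε J₀)) k (Idx q ι → k),
      (∀ x, R.ρ₁ x = x.1.1 (Sum.inl (Sum.inl i))) ∧
      (∀ x, R.ρ₂ x = x.1.1 (Sum.inl (Sum.inr i))) ∧
      ∀ (g : FormGroup σ (hyp q ε J₀)) (d : Idx q ι → k), g.1.1 = diagonal d →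
        d (Sum.inl (Sum.inl i)) = d (Sum.inl (Sum.inr i)) → ∀ x ∈ R.K, Commute g x :=
  exists_long hε i ht₀ hσt hw0 hw hσw (fun t h => long_up i h) (fun t h => long_lo i h)

end hyp

end Vale.Agent.P092.H534.Ch
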