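import Vale.Agent.P092.H701.Chain

/-!
P092 (helper534), TEAM P, stages 2 and 3, [NRM]: ping-pong families are pushed forward along proper
homomorphisms `φ : H →* E` into any second countable locally compact group `E`.

`RowT H k V`: two vector valued functions (rows) on a group `H` with finitely many (but arbitrarily
many) unipotent elements acting on them, robust under right multiplication by compact sets.

`RowT.pps`: if `b N ∈ H` acts on the two rows by `α N`, `β N` with `|α N| ≫ |β N|`, then `φ (b N)` has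
the ping-pong families of `HChain` in `E` with elements of the compact set `φ(K)`.  No section of
`E → φ(H) \ E` is used: only a countable cover of `E` by sets `φ(H) V xᵢ`.

`chainOf`: chains of length `r` of `E` from such data.
-/

set_option linter.all false

open Set Topology Pointwise

namespace Vale.Agent.P092.H534.Ch

open Vale.Agent.P092.H701 (RowPair HChain exists_pts)

/-- The ping-pong property of a sequence `b` with respect to the compact set `K`. -/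
def PPs {E : Type*} [Group E] [TopologicalSpace E] [MeasurableSpace E] (b : ℕ → E) (K : Set E) :
    Prop :=
  IsCompact K ∧ ∀ p : ℕ, ∃ N₀, ∀ N, N₀ ≤ N → ∃ (κ κ' : Fin p → E) (Bm Bp : Fin p → Set E),
    (∀ l, κ l ∈ K) ∧ (∀ l, κ' l ∈ K) ∧
    (∀ l, MeasurableSet (Bm l)) ∧ (∀ l, MeasurableSet (Bp l)) ∧
    (∀ l l', l ≠ l' → Disjoint (Bm l) (Bm l')) ∧
    (∀ l l', l ≠ l' → Disjoint (Bp l) (Bp l')) ∧
    ∀ l x, x ∉ Bm l → κ l * b N * κ' l * x ∈ Bp l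

/-- Chains from ping-pong sequences. -/
def chainOf {E : Type*} [Group E] [TopologicalSpace E] [MeasurableSpace E] {r : ℕ}
    (b : Fin r → ℕ → E) (K : Fin r → Set E) (h : ∀ j, PPs (b j) (K j))
    (hb : ∀ i j, i < j → ∀ N M, b i N * b j M = b j M * b i N)
    (hK : ∀ i j, i < j → ∀ N, ∀ x ∈ K j, b i N * x = x * b i N) : HChain E r where
  b := b
  K := K
  compact j := (h j).1
  comm_b := hb
  comm_K := hK
  pp j p := (h j).2 p

/-- Two rows with arbitrarily many separated unipotents; `K` is a compact set which contains them. -/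
structure RowT (H : Type*) [Group H] [TopologicalSpace H] (k : Type*) [NontriviallyNormedField k]
    (V : Type*) [NormedAddCommGroup V] [NormedSpace k V] where
  ρ₁ : H → V
  ρ₂ : H → V
  ne : ∀ x, 0 < max ‖ρ₁ x‖ ‖ρ₂ x‖
  K : Set H
  compact : IsCompact K
  rob : ∀ S : Set H, IsCompact S → ∃ C : ℝ, ∀ h, ∀ s ∈ S,
    ‖ρ₁ (h * s)‖ ≤ C * ‖ρ₁ h‖ ∧ ‖ρ₂ (h * s)‖ ≤ C * ‖ρ₂ h‖
  pts : ∀ p : ℕ, ∃ (t t' : Fin p → k) (η : ℝ) (u l : Fin p → H), 0 < η ∧ η ≤ 1 ∧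
    (∀ i, ‖t i‖ ≤ 1) ∧ (∀ i j, i ≠ j → η ≤ ‖t i - t j‖) ∧ (∀ i j, i ≠ j → η ≤ ‖t' i - t' j‖) ∧
    (∀ i, u i ∈ K) ∧ (∀ i, l i ∈ K) ∧
    (∀ i x, ρ₁ (u i * x) = ρ₁ x + t i • ρ₂ x) ∧ (∀ i x, ρ₂ (u i * x) = ρ₂ x) ∧
    (∀ i x, ρ₁ (l i * x) = ρ₁ x) ∧ (∀ i x, ρ₂ (l i * x) = ρ₂ x + t' i • ρ₁ x)

section

variable {H : Type*} [Group H] [TopologicalSpace H] {k : Type*} [NontriviallyNormedField k]
  {V : Type*} [NormedAddCommGroup V] [NormedSpace k V]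

/-- Row pairs which are robust under right multiplication. -/
def RowT.ofPair [ProperSpace k] (R : RowPair H k V)
    (rob : ∀ S : Set H, IsCompact S → ∃ C : ℝ, ∀ h, ∀ s ∈ S,
      ‖R.ρ₁ (h * s)‖ ≤ C * ‖R.ρ₁ h‖ ∧ ‖R.ρ₂ (h * s)‖ ≤ C * ‖R.ρ₂ h‖) : RowT H k V where
  ρ₁ := R.ρ₁
  ρ₂ := R.ρ₂
  ne := R.ne
  K := R.K
  compact := R.isCompact_K
  rob := rob
  pts p := by
    obtain ⟨t, η, hη, hη1, ht, hs⟩ := exists_pts k p
    exact ⟨t, t, η, fun i => R.up (t i), fun i => R.lo (t i), hη, hη1, ht, hs, hs,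
      fun i => Or.inl ⟨t i, by simpa using ht i, rfl⟩,
      fun i => Or.inr ⟨t i, by simpa using ht i, rfl⟩,
      fun i x => R.up₁ _ _, fun i x => R.up₂ _ _, fun i x => R.lo₁ _ _, fun i x => R.lo₂ _ _⟩

variable {E : Type*} [Group E] [TopologicalSpace E] [IsTopologicalGroup E]
  [LocallyCompactSpace E] [SecondCountableTopology E] [MeasurableSpace E] [OpensMeasurableSpace E]

/-- **Push-forward of ping-pong families.** -/
theorem RowT.pps (R : RowT H k V) (φ : H →* E) (hφ : Continuous φ)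
    (hp : ∀ C : Set E, IsCompact C → ∃ C' : Set H, IsCompact C' ∧ φ ⁻¹' C ⊆ C')
    (b : ℕ → H) (α β : ℕ → k)
    (h₁ : ∀ N x, R.ρ₁ (b N * x) = α N • R.ρ₁ x) (h₂ : ∀ N x, R.ρ₂ (b N * x) = β N • R.ρ₂ x)
    (h0 : ∀ N, α N ≠ 0) (hlim : ∀ C : ℝ, ∃ N₀, ∀ N, N₀ ≤ N → C * ‖β N‖ ≤ ‖α N‖) :
    PPs (fun N => φ (b N)) (φ '' R.K) := by
  refine ⟨R.compact.image hφ, fun p => ?_⟩
  obtain ⟨t, t', η, u, l, hη, hη1, ht, hs, hs', hu, hl, u₁, u₂, l₁, l₂⟩ := R.pts p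
  -- the inverse of the lower unipotents
  have l₁' : ∀ i x, R.ρ₁ ((l i)⁻¹ * x) = R.ρ₁ x := fun i x => by
    have h := l₁ i ((l i)⁻¹ * x)
    rw [mul_inv_cancel_left] at h
    exact h.symm
  have l₂' : ∀ i x, R.ρ₂ ((l i)⁻¹ * x) = R.ρ₂ x - t' i • R.ρ₁ x := fun i x => by
    have h := l₂ i ((l i)⁻¹ * x)
    rw [mul_inv_cancel_left, l₁'] at h
    rw [h, add_sub_cancel_right]
  -- a neighbourhood of 1
  obtain ⟨U, hUc, hU⟩ := exists_compact_mem_nhds (1 : E)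
  obtain ⟨W, hWo, hW1, hWU⟩ : ∃ W : Set E, IsOpen W ∧ (1 : E) ∈ W ∧ W ⊆ U :=
    ⟨interior U, isOpen_interior, mem_interior_iff_mem_nhds.2 hU, interior_subset⟩
  obtain ⟨S₀, hS₀, hUS⟩ := hp (U * U⁻¹) (hUc.mul hUc.inv)
  obtain ⟨C, hC⟩ := R.rob S₀ hS₀
  obtain ⟨c, hc1, hc⟩ : ∃ c : ℝ, 1 ≤ c ∧ ∀ h, ∀ s ∈ S₀,
      ‖R.ρ₁ (h * s)‖ ≤ c * ‖R.ρ₁ h‖ ∧ ‖R.ρ₂ (h * s)‖ ≤ c * ‖R.ρ₂ h‖ := by
    refine ⟨max C 1, le_max_right _ _, fun h s hs => ⟨(hC h s hs).1.trans ?_,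
      (hC h s hs).2.trans ?_⟩⟩
    · exact mul_le_mul_of_nonneg_right (le_max_left _ _) (norm_nonneg _)
    · exact mul_le_mul_of_nonneg_right (le_max_left _ _) (norm_nonneg _)
  have hc0 : 0 < c := zero_lt_one.trans_le hc1
  -- two decompositions differ by a bounded element, in both directions
  have hdec : ∀ (h h' : H) (v v' : E), v ∈ W → v' ∈ W → ∀ y : E, φ h * v * y = φ h' * v' * y →
      h⁻¹ * h' ∈ S₀ := by
    intro h h' v v' hv hv' y hy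
    refine hUS ?_
    have e : φ h * v = φ h' * v' := mul_right_cancel hy
    have e' : φ (h⁻¹ * h') = v * v'⁻¹ := by
      rw [map_mul, map_inv]
      have : φ h' = φ h * v * v'⁻¹ := by rw [e, mul_inv_cancel_right]
      rw [this]
      group
    change φ (h⁻¹ * h') ∈ U * U⁻¹
    rw [e']
    exact Set.mul_mem_mul (hWU hv) (Set.inv_mem_inv.2 (hWU hv'))
  -- countable cover
  obtain ⟨x, hx⟩ : ∃ x : ℕ → E, ∀ y : E, ∃ i, ∃ v ∈ W, y = v * x i := by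
    obtain ⟨x, hx⟩ := TopologicalSpace.exists_dense_seq E
    refine ⟨x, fun y => ?_⟩
    have ho : IsOpen ((fun z : E => y * z⁻¹) ⁻¹' W) :=
      hWo.preimage (continuous_const.mul continuous_inv)
    obtain ⟨i, hi⟩ := hx.exists_mem_open ho ⟨y, by
      change y * y⁻¹ ∈ W
      rw [mul_inv_cancel]
      exact hW1⟩
    exact ⟨i, y * (x i)⁻¹, hi, by rw [inv_mul_cancel_right]⟩
  obtain ⟨Q, hQ⟩ : ∃ Q : Set H → ℕ → Set E, Q = fun D i => {y | ∃ h ∈ D, ∃ v ∈ W,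
    y = φ h * v * x i} := ⟨_, rfl⟩
  have hQo : ∀ D i, IsOpen (Q D i) := by
    intro D i
    have e : Q D i = ⋃ h ∈ D, (fun y : E => (φ h)⁻¹ * y * (x i)⁻¹) ⁻¹' W := by
      rw [hQ]
      ext y
      simp only [mem_setOf_eq, mem_iUnion, mem_preimage]
      constructor
      · rintro ⟨h, hh, v, hv, rfl⟩
        refine ⟨h, hh, ?_⟩
        have : (φ h)⁻¹ * (φ h * v * x i) * (x i)⁻¹ = v := by group
        rw [this]
        exact hv
      · rintro ⟨h, hh, hv⟩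
        exact ⟨h, hh, _, hv, by group⟩
    rw [e]
    refine isOpen_biUnion fun h _ => hWo.preimage ?_
    exact (continuous_const.mul continuous_id).mul continuous_const
  obtain ⟨A, hA⟩ : ∃ A : ℕ → Set E, A = fun i => Q univ i \ ⋃ j < i, Q univ j := ⟨_, rfl⟩
  have hAm : ∀ i, MeasurableSet (A i) := fun i => by
    rw [hA]
    exact (hQo _ _).measurableSet.diff (isOpen_biUnion fun j _ => hQo _ _).measurableSet
  have hAd : ∀ i j y, y ∈ A i → y ∈ A j → i = j := by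
    have key : ∀ i j y, y ∈ A i → y ∈ A j → ¬ i < j := by
      intro i j y hi hj hij
      rw [hA] at hi hj
      exact hj.2 (mem_iUnion₂.2 ⟨i, hij, hi.1⟩)
    intro i j y hi hj
    exact le_antisymm (not_lt.1 (key j i y hj hi)) (not_lt.1 (key i j y hi hj))
  have hAc : ∀ y, ∃ i, y ∈ A i := by
    classical
    intro y
    have hex : ∃ i, y ∈ Q univ i := by
      obtain ⟨i, v, hv, e⟩ := hx y
      refine ⟨i, ?_⟩
      rw [hQ]
      exact ⟨1, mem_univ _, v, hv, by rw [map_one, one_mul]; exact e⟩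
    refine ⟨Nat.find hex, ?_⟩
    rw [hA]
    refine ⟨Nat.find_spec hex, fun hcon => ?_⟩
    obtain ⟨j, hj, hy⟩ := mem_iUnion₂.1 hcon
    exact Nat.find_min hex hj hy
  have hAi : ∀ i h y, y ∈ A i → φ h * y ∈ A i := by
    have key : ∀ i h y, y ∈ Q univ i → φ h * y ∈ Q univ i := by
      intro i h y hy
      rw [hQ] at hy ⊢
      obtain ⟨h', -, v, hv, rfl⟩ := hy
      exact ⟨h * h', mem_univ _, v, hv, by rw [map_mul]; group⟩
    intro i h y hy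
    rw [hA] at hy ⊢
    refine ⟨key i h y hy.1, fun hcon => hy.2 ?_⟩
    obtain ⟨j, hj, hz⟩ := mem_iUnion₂.1 hcon
    refine mem_iUnion₂.2 ⟨j, hj, ?_⟩
    have := key j h⁻¹ _ hz
    rwa [map_inv, inv_mul_cancel_left] at this
  -- the constants
  obtain ⟨δ, hδ⟩ : ∃ δ : ℝ, δ = η / (8 * c ^ 2) := ⟨_, rfl⟩
  have hδ0 : 0 < δ := by rw [hδ]; positivity
  have hδc : c ^ 2 * δ = η / 8 := by rw [hδ]; field_simp
  have hδ1 : δ ≤ η / 8 := by
    rw [← hδc]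
    have : (1 : ℝ) ≤ c ^ 2 := one_le_pow₀ hc1
    nlinarith
  obtain ⟨N₀, hN₀⟩ := hlim (1 / (δ * δ))
  refine ⟨N₀, fun N hN => ?_⟩
  have hβ : ‖β N‖ ≤ δ * (δ * ‖α N‖) := by
    have h3 := hN₀ N hN
    rw [div_mul_eq_mul_div, one_mul, div_le_iff₀ (by positivity)] at h3
    calc ‖β N‖ ≤ ‖α N‖ * (δ * δ) := h3
      _ = _ := by ring
  obtain ⟨bm, hbm⟩ : ∃ bm : Fin p → Set H, bm = fun i =>
    {h | ‖R.ρ₁ (u i * h)‖ ≤ δ * max ‖R.ρ₁ h‖ ‖R.ρ₂ h‖} := ⟨_, rfl⟩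
  obtain ⟨bp, hbp⟩ : ∃ bp : Fin p → Set H, bp = fun i =>
    {h | R.ρ₁ h ≠ 0 ∧ ‖R.ρ₂ ((l i)⁻¹ * h)‖ ≤ δ * ‖R.ρ₁ h‖} := ⟨_, rfl⟩
  refine ⟨fun i => φ (l i), fun i => φ (u i), fun i => ⋃ j, A j ∩ Q (bm i) j,
    fun i => ⋃ j, A j ∩ Q (bp i) j, fun i => ⟨_, hl i, rfl⟩, fun i => ⟨_, hu i, rfl⟩,
    fun i => MeasurableSet.iUnion fun j => (hAm j).inter (hQo _ _).measurableSet,
    fun i => MeasurableSet.iUnion fun j => (hAm j).inter (hQo _ _).measurableSet, ?_, ?_, ?_⟩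
  · intro i i' hne
    rw [Set.disjoint_left]
    intro y hy hy'
    obtain ⟨j, hyA, hyQ⟩ := mem_iUnion.1 hy
    obtain ⟨j', hyA', hyQ'⟩ := mem_iUnion.1 hy'
    obtain rfl := hAd j j' y hyA hyA'
    rw [hQ] at hyQ hyQ'
    obtain ⟨h, hh, v, hv, e⟩ := hyQ
    obtain ⟨h', hh', v', hv', e'⟩ := hyQ'
    rw [hbm] at hh hh'
    simp only [mem_setOf_eq] at hh hh'
    -- compare `h` to `h'`
    have hsS := hdec h' h v' v hv' hv (x j) (by rw [← e', ← e])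
    have hsS' := hdec h h' v v' hv hv' (x j) (by rw [← e', ← e])
    obtain ⟨s, hs0⟩ : ∃ s, s = h'⁻¹ * h := ⟨_, rfl⟩
    have hhs : h = h' * s := by rw [hs0, mul_inv_cancel_left]
    have hhs' : h' = h * (h⁻¹ * h') := by rw [mul_inv_cancel_left]
    have m' : max ‖R.ρ₁ h'‖ ‖R.ρ₂ h'‖ ≤ c * max ‖R.ρ₁ h‖ ‖R.ρ₂ h‖ := by
      have h3 := hc h _ hsS'
      rw [← hhs'] at h3
      refine max_le (h3.1.trans ?_) (h3.2.trans ?_)
      · exact mul_le_mul_of_nonneg_left (le_max_left _ _) hc0.le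
      · exact mul_le_mul_of_nonneg_left (le_max_right _ _) hc0.le
    obtain ⟨m, hm⟩ : ∃ m, m = max ‖R.ρ₁ h‖ ‖R.ρ₂ h‖ := ⟨_, rfl⟩
    have hm0 : 0 < m := by rw [hm]; exact R.ne h
    rw [← hm] at m' hh
    have hx2 : ‖R.ρ₁ (u i' * h)‖ ≤ η / 8 * m := by
      have h3 := (hc (u i' * h') s (by rw [hs0]; exact hsS)).1
      rw [mul_assoc, ← hhs] at h3
      calc ‖R.ρ₁ (u i' * h)‖ ≤ c * ‖R.ρ₁ (u i' * h')‖ := h3
        _ ≤ c * (δ * (c * m)) := mul_le_mul_of_nonneg_left (hh'.trans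
            (mul_le_mul_of_nonneg_left m' hδ0.le)) hc0.le
        _ = (c ^ 2 * δ) * m := by ring
        _ = _ := by rw [hδc]
    have hx1 : ‖R.ρ₁ (u i * h)‖ ≤ η / 8 * m := hh.trans (mul_le_mul_of_nonneg_right hδ1 hm0.le)
    rw [u₁] at hx1 hx2
    have h1 : (t i - t i') • R.ρ₂ h
        = (R.ρ₁ h + t i • R.ρ₂ h) - (R.ρ₁ h + t i' • R.ρ₂ h) := by
      rw [sub_smul]; abel
    have h2 : η * ‖R.ρ₂ h‖ ≤ η / 4 * m := by
      calc η * ‖R.ρ₂ h‖ ≤ ‖t i - t i'‖ * ‖R.ρ₂ h‖ :=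
            mul_le_mul_of_nonneg_right (hs i i' hne) (norm_nonneg _)
        _ = ‖(t i - t i') • R.ρ₂ h‖ := (norm_smul _ _).symm
        _ = ‖(R.ρ₁ h + t i • R.ρ₂ h) - (R.ρ₁ h + t i' • R.ρ₂ h)‖ := by rw [h1]
        _ ≤ ‖R.ρ₁ h + t i • R.ρ₂ h‖ + ‖R.ρ₁ h + t i' • R.ρ₂ h‖ := norm_sub_le _ _
        _ ≤ η / 8 * m + η / 8 * m := add_le_add hx1 hx2
        _ = η / 4 * m := by ring
    have h3 : ‖R.ρ₂ h‖ ≤ m / 4 := by
      have : η * ‖R.ρ₂ h‖ ≤ η * (m / 4) := by linarith [h2]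
      exact le_of_mul_le_mul_left this hη
    have h4 : ‖R.ρ₁ h‖ ≤ m / 8 + m / 4 := by
      have e1 : R.ρ₁ h = (R.ρ₁ h + t i • R.ρ₂ h) - t i • R.ρ₂ h := by abel
      calc ‖R.ρ₁ h‖ = ‖(R.ρ₁ h + t i • R.ρ₂ h) - t i • R.ρ₂ h‖ := by rw [← e1]
        _ ≤ ‖R.ρ₁ h + t i • R.ρ₂ h‖ + ‖t i • R.ρ₂ h‖ := norm_sub_le _ _
        _ ≤ η / 8 * m + 1 * (m / 4) := by
            apply add_le_add hx1
            rw [norm_smul]
            exact mul_le_mul (ht i) h3 (norm_nonneg _) zero_le_one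
        _ ≤ m / 8 + m / 4 := by nlinarith
    have h5 : m ≤ m / 8 + m / 4 := by
      rw [hm] at h3 h4 ⊢
      exact max_le h4 (by linarith [h3, R.ne h])
    linarith
  · intro i i' hne
    rw [Set.disjoint_left]
    intro y hy hy'
    obtain ⟨j, hyA, hyQ⟩ := mem_iUnion.1 hy
    obtain ⟨j', hyA', hyQ'⟩ := mem_iUnion.1 hy'
    obtain rfl := hAd j j' y hyA hyA'
    rw [hQ] at hyQ hyQ'
    obtain ⟨h, hh, v, hv, e⟩ := hyQ
    obtain ⟨h', hh', v', hv', e'⟩ := hyQ'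
    rw [hbp] at hh hh'
    obtain ⟨hx0, hh⟩ := hh
    obtain ⟨-, hh'⟩ := hh'
    have hsS := hdec h' h v' v hv' hv (x j) (by rw [← e', ← e])
    have hsS' := hdec h h' v v' hv hv' (x j) (by rw [← e', ← e])
    obtain ⟨s, hs0⟩ : ∃ s, s = h'⁻¹ * h := ⟨_, rfl⟩
    have hhs : h = h' * s := by rw [hs0, mul_inv_cancel_left]
    have hhs' : h' = h * (h⁻¹ * h') := by rw [mul_inv_cancel_left]
    have hpos : 0 < ‖R.ρ₁ h‖ := norm_pos_iff.mpr hx0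
    have m' : ‖R.ρ₁ h'‖ ≤ c * ‖R.ρ₁ h‖ := by
      have h3 := hc h _ hsS'
      rw [← hhs'] at h3
      exact h3.1
    have hx2 : ‖R.ρ₂ ((l i')⁻¹ * h)‖ ≤ η / 8 * ‖R.ρ₁ h‖ := by
      have h3 := (hc ((l i')⁻¹ * h') s (by rw [hs0]; exact hsS)).2
      rw [mul_assoc, ← hhs] at h3
      calc ‖R.ρ₂ ((l i')⁻¹ * h)‖ ≤ c * ‖R.ρ₂ ((l i')⁻¹ * h')‖ := h3
        _ ≤ c * (δ * (c * ‖R.ρ₁ h‖)) := mul_le_mul_of_nonneg_left (hh'.trans
            (mul_le_mul_of_nonneg_left m' hδ0.le)) hc0.le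
        _ = (c ^ 2 * δ) * ‖R.ρ₁ h‖ := by ring
        _ = _ := by rw [hδc]
    have hx1 : ‖R.ρ₂ ((l i)⁻¹ * h)‖ ≤ η / 8 * ‖R.ρ₁ h‖ :=
      hh.trans (mul_le_mul_of_nonneg_right hδ1 hpos.le)
    rw [l₂'] at hx1 hx2
    have h1 : (t' i - t' i') • R.ρ₁ h
        = (R.ρ₂ h - t' i' • R.ρ₁ h) - (R.ρ₂ h - t' i • R.ρ₁ h) := by
      rw [sub_smul]; abel
    have h2 : η * ‖R.ρ₁ h‖ ≤ η / 4 * ‖R.ρ₁ h‖ := by
      calc η * ‖R.ρ₁ h‖ ≤ ‖t' i - t' i'‖ * ‖R.ρ₁ h‖ :=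
            mul_le_mul_of_nonneg_right (hs' i i' hne) (norm_nonneg _)
        _ = ‖(t' i - t' i') • R.ρ₁ h‖ := (norm_smul _ _).symm
        _ = ‖(R.ρ₂ h - t' i' • R.ρ₁ h) - (R.ρ₂ h - t' i • R.ρ₁ h)‖ := by rw [h1]
        _ ≤ ‖R.ρ₂ h - t' i' • R.ρ₁ h‖ + ‖R.ρ₂ h - t' i • R.ρ₁ h‖ := norm_sub_le _ _
        _ ≤ η / 8 * ‖R.ρ₁ h‖ + η / 8 * ‖R.ρ₁ h‖ := add_le_add hx2 hx1
        _ = η / 4 * ‖R.ρ₁ h‖ := by ring
    have : η * ‖R.ρ₁ h‖ > 0 := mul_pos hη hpos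
    linarith
  · intro i y hy
    obtain ⟨j, hj⟩ := hAc y
    have hj' := hj
    rw [hA] at hj'
    have hj1 := hj'.1
    rw [hQ] at hj1
    obtain ⟨h, -, v, hv, e⟩ := hj1
    have hh : h ∉ bm i := by
      intro hh
      refine hy (mem_iUnion.2 ⟨j, hj, ?_⟩)
      rw [hQ]
      exact ⟨h, hh, v, hv, e⟩
    rw [hbm] at hh
    simp only [mem_setOf_eq, not_le] at hh
    obtain ⟨m, hm⟩ : ∃ m, m = max ‖R.ρ₁ h‖ ‖R.ρ₂ h‖ := ⟨_, rfl⟩
    have hm0 : 0 < m := by rw [hm]; exact R.ne h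
    rw [← hm] at hh
    have e3 : φ (l i) * φ (b N) * φ (u i) * y = φ (l i * b N * u i) * y := by
      rw [map_mul, map_mul]
    rw [e3]
    refine mem_iUnion.2 ⟨j, hAi _ _ _ hj, ?_⟩
    rw [hQ]
    refine ⟨l i * b N * u i * h, ?_, v, hv, by rw [e, map_mul φ (l i * b N * u i) h]; group⟩
    rw [hbp]
    have hz : 0 < ‖R.ρ₁ (u i * h)‖ := lt_of_le_of_lt (by positivity) hh
    have hα : 0 < ‖α N‖ := norm_pos_iff.mpr (h0 N)
    have e1 : R.ρ₁ (l i * b N * u i * h) = α N • R.ρ₁ (u i * h) := by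
      rw [mul_assoc, mul_assoc, l₁, h₁]
    have e2 : R.ρ₂ ((l i)⁻¹ * (l i * b N * u i * h)) = β N • R.ρ₂ (u i * h) := by
      have : (l i)⁻¹ * (l i * b N * u i * h) = b N * (u i * h) := by group
      rw [this, h₂]
    refine ⟨?_, ?_⟩
    · rw [e1]
      exact smul_ne_zero (h0 N) (norm_pos_iff.mp hz)
    · rw [e1, e2, norm_smul, norm_smul, u₂]
      calc ‖β N‖ * ‖R.ρ₂ h‖ ≤ (δ * (δ * ‖α N‖)) * m :=
            mul_le_mul hβ (by rw [hm]; exact le_max_right _ _) (norm_nonneg _) (by positivity)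
        _ = δ * (‖α N‖ * (δ * m)) := by ring
        _ ≤ δ * (‖α N‖ * ‖R.ρ₁ (u i * h)‖) := by
            apply mul_le_mul_of_nonneg_left _ hδ0.le
            exact mul_le_mul_of_nonneg_left hh.le hα.le

end

end Vale.Agent.P092.H534.Ch
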