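import Vale.Agent.P092.H534.Ch.PPush
import Vale.Agent.P092.H534.Sp.Chain

/-!
P092 (helper534), TEAM P, stages 2 and 3, [NRM]: ping-pong sequences of a group `E` from rows of a
matrix group `S ≤ SL_n(k)` and a proper homomorphism `φ : S →* E`.

`pps_rows`: short roots (a row pair whose rows are the matrix rows `a`, `b`).
`pps_long`: long roots `1 + t E_aa'` with `t` in an additive subgroup which contains `t₀ w^m`
(unitary groups: `t₀` with `σ t₀ = - ε t₀`, `w` in the fixed field).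
-/

set_option linter.all false

open Matrix Set Topology Filter

namespace Vale.Agent.P092.H534.Ch

open Vale.Agent.P092.H701 (RowPair HChain exists_pts)
open Vale.Agent.P092.H368.SN (tv tv_coe tv_add tv_zero tv_inv tv_sub tv_entry continuous_tv diag_tv)
open Vale.Agent.P092.H534.SpK

variable {k : Type} [NontriviallyNormedField k] {n : Type} [Fintype n] [DecidableEq n]
  {S : Subgroup (SpecialLinearGroup n k)}

/-- rows are robust under right multiplication by compact sets -/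
theorem rob_row (a b : n) (C : Set S) (hC : IsCompact C) : ∃ c : ℝ, ∀ h : S, ∀ s ∈ C,
    ‖(h * s).1.1 a‖ ≤ c * ‖h.1.1 a‖ ∧ ‖(h * s).1.1 b‖ ≤ c * ‖h.1.1 b‖ := by
  have hcont : Continuous fun x : S => fun p : n × n => x.1.1 p.1 p.2 := by
    have h : Continuous fun x : S => x.1.1 := continuous_subtype_val.comp continuous_subtype_val
    exact continuous_pi fun p => (continuous_apply p.2).comp ((continuous_apply p.1).comp h)
  obtain ⟨M, hM⟩ := hC.exists_bound_of_continuousOn hcont.continuousOn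
  refine ⟨Fintype.card n * |M|, fun h s hs => ?_⟩
  have key : ∀ i : n, ‖(h * s).1.1 i‖ ≤ Fintype.card n * |M| * ‖h.1.1 i‖ := by
    intro i
    refine (pi_norm_le_iff_of_nonneg (by positivity)).2 fun j => ?_
    have e : (h * s).1.1 i j = ∑ l, h.1.1 i l * s.1.1 l j := rfl
    rw [e]
    refine (norm_sum_le _ _).trans ?_
    have h1 : ∀ l ∈ Finset.univ, ‖h.1.1 i l * s.1.1 l j‖ ≤ ‖h.1.1 i‖ * |M| := by
      intro l _
      rw [norm_mul]
      refine mul_le_mul (norm_le_pi_norm _ l) ?_ (norm_nonneg _) (norm_nonneg _)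
      exact ((norm_le_pi_norm (fun p : n × n => s.1.1 p.1 p.2) (l, j)).trans (hM s hs)).trans
        (le_abs_self M)
    refine (Finset.sum_le_sum h1).trans ?_
    rw [Finset.sum_const, Finset.card_univ, nsmul_eq_mul]
    exact le_of_eq (by ring)
  exact ⟨key a, key b⟩

theorem row_ne (a b : n) (x : S) : 0 < max ‖x.1.1 a‖ ‖x.1.1 b‖ :=
  lt_max_of_lt_left (row_pos x.1 a)

theorem dg_pow {g : SpecialLinearGroup n k} {d : n → k} (hg : g.1 = diagonal d) (N : ℕ) :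
    (g ^ N).1 = diagonal fun i => d i ^ N := by
  have e : (g ^ N).1 = g.1 ^ N := Matrix.SpecialLinearGroup.coe_pow g N
  rw [e, hg, diagonal_pow]
  rfl

theorem pow_lim {α β : k} (h : ‖β‖ < ‖α‖) (C : ℝ) : ∃ N₀ : ℕ, ∀ N, N₀ ≤ N → C * ‖β ^ N‖ ≤ ‖α ^ N‖ := by
  have hα : 0 < ‖α‖ := (norm_nonneg β).trans_lt h
  obtain ⟨r, hr⟩ : ∃ r : ℝ, r = ‖β‖ / ‖α‖ := ⟨_, rfl⟩
  have hr0 : 0 ≤ r := by rw [hr]; positivity
  have hr1 : r < 1 := by rw [hr, div_lt_one hα]; exact h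
  obtain ⟨N₀, hN₀⟩ := exists_pow_lt_of_lt_one (show (0 : ℝ) < 1 / (|C| + 1) by positivity) hr1
  refine ⟨N₀, fun N hN => ?_⟩
  have h1 : r ^ N ≤ 1 / (|C| + 1) := (pow_le_pow_of_le_one hr0 hr1.le hN).trans hN₀.le
  have h2 : (|C| + 1) * r ^ N ≤ 1 := by
    have := mul_le_mul_of_nonneg_left h1 (show (0 : ℝ) ≤ |C| + 1 by positivity)
    rwa [mul_one_div_cancel (by positivity)] at this
  have h3 : ‖β‖ ^ N = r ^ N * ‖α‖ ^ N := by
    rw [← mul_pow, hr, div_mul_cancel₀ _ hα.ne']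
  rw [norm_pow, norm_pow, h3]
  have h4 : 0 ≤ ‖α‖ ^ N := by positivity
  have h5 : 0 ≤ r ^ N := pow_nonneg hr0 N
  calc C * (r ^ N * ‖α‖ ^ N) = (C * r ^ N) * ‖α‖ ^ N := by ring
    _ ≤ 1 * ‖α‖ ^ N := by
        refine mul_le_mul_of_nonneg_right ?_ h4
        have := le_abs_self C
        nlinarith
    _ = _ := one_mul _

section E

variable {E : Type*} [Group E] [TopologicalSpace E] [IsTopologicalGroup E]
  [LocallyCompactSpace E] [SecondCountableTopology E] [MeasurableSpace E] [OpensMeasurableSpace E]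

/-- ping-pong of a diagonal element from a `RowT` whose rows are matrix rows -/
theorem pps_rowT (R : RowT S k (n → k)) {a b : n} (ha : ∀ x, R.ρ₁ x = x.1.1 a)
    (hb : ∀ x, R.ρ₂ x = x.1.1 b) {g : S} {d : n → k} (hg : g.1.1 = diagonal d)
    (hd : ‖d b‖ < ‖d a‖) (φ : S →* E) (hφ : Continuous φ)
    (hp : ∀ C : Set E, IsCompact C → ∃ C' : Set S, IsCompact C' ∧ φ ⁻¹' C ⊆ C') :
    PPs (fun N => φ g ^ N) (φ '' R.K) := by
  have hr : ∀ (N : ℕ) (x : S) (i : n), (g ^ N * x).1.1 i = d i ^ N • x.1.1 i := fun N x i => by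
    have e : (g ^ N).1.1 = diagonal fun i => d i ^ N := by
      have := dg_pow hg N
      rwa [← Subgroup.coe_pow] at this
    exact dg_row e i x.1
  have h := R.pps φ hφ hp (fun N => g ^ N) (fun N => d a ^ N) (fun N => d b ^ N)
    (fun N x => by rw [ha, ha, hr]) (fun N x => by rw [hb, hb, hr])
    (fun N => pow_ne_zero _ (norm_pos_iff.1 ((norm_nonneg _).trans_lt hd))) (pow_lim hd)
  simpa only [map_pow] using h

/-- **short roots** -/
theorem pps_rows [ProperSpace k] (R : RowPair S k (n → k)) {a b : n} (ha : ∀ x, R.ρ₁ x = x.1.1 a)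
    (hb : ∀ x, R.ρ₂ x = x.1.1 b) {g : S} {d : n → k} (hg : g.1.1 = diagonal d)
    (hd : ‖d b‖ < ‖d a‖) (φ : S →* E) (hφ : Continuous φ)
    (hp : ∀ C : Set E, IsCompact C → ∃ C' : Set S, IsCompact C' ∧ φ ⁻¹' C ⊆ C') :
    PPs (fun N => φ g ^ N) (φ '' R.K) := by
  refine pps_rowT (RowT.ofPair R fun C hC => ?_) ha hb hg hd φ hφ hp
  obtain ⟨c, hc⟩ := rob_row (S := S) a b C hC
  refine ⟨c, fun h s hs => ?_⟩
  rw [ha, ha, hb, hb]
  exact hc h s hs

end E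

/-- the compact set of a sequence of transvections which converges to `1` -/
theorem compact_tv {i j : n} (hij : i ≠ j) {t w : k} (hw : ‖w‖ < 1)
    (h : ∀ m : ℕ, tv hij (t * w ^ m) ∈ S) :
    IsCompact (insert (1 : S) (range fun m : ℕ => (⟨tv hij (t * w ^ m), h m⟩ : S))) := by
  refine Tendsto.isCompact_insert_range ?_
  rw [tendsto_subtype_rng]
  have h1 : Tendsto (fun m : ℕ => t * w ^ m) atTop (𝓝 (t * 0)) :=
    tendsto_const_nhds.mul (tendsto_pow_atTop_nhds_zero_of_norm_lt_one hw)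
  rw [mul_zero] at h1
  have h2 := ((continuous_tv (k := k) hij).tendsto 0).comp h1
  rw [tv_zero] at h2
  exact h2

theorem sep_pow {t w : k} (hw : ‖w‖ < 1) (p : ℕ) {l l' : ℕ} (hne : l ≠ l') (hl : l < p)
    (hl' : l' < p) : ‖t‖ * (‖w‖ ^ p * (1 - ‖w‖)) ≤ ‖t * w ^ l - t * w ^ l'‖ := by
  have hs0 := norm_nonneg w
  have key : ∀ l l' : ℕ, l < l' → l < p → ‖w‖ ^ p * (1 - ‖w‖) ≤ ‖w ^ l - w ^ l'‖ := by
    intro l l' hl hp
    have h1 : ‖w ^ l‖ - ‖w ^ l'‖ ≤ ‖w ^ l - w ^ l'‖ := norm_sub_norm_le _ _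
    rw [norm_pow, norm_pow] at h1
    have h2 : ‖w‖ ^ l' ≤ ‖w‖ ^ (l + 1) := pow_le_pow_of_le_one hs0 hw.le hl
    have h3 : ‖w‖ ^ p ≤ ‖w‖ ^ l := pow_le_pow_of_le_one hs0 hw.le hp.le
    have h4 : ‖w‖ ^ p * (1 - ‖w‖) ≤ ‖w‖ ^ l * (1 - ‖w‖) :=
      mul_le_mul_of_nonneg_right h3 (by linarith)
    calc ‖w‖ ^ p * (1 - ‖w‖) ≤ ‖w‖ ^ l * (1 - ‖w‖) := h4
      _ = ‖w‖ ^ l - ‖w‖ ^ (l + 1) := by ring
      _ ≤ ‖w‖ ^ l - ‖w‖ ^ l' := by linarith
      _ ≤ _ := h1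
  rw [← mul_sub, norm_mul]
  refine mul_le_mul_of_nonneg_left ?_ (norm_nonneg _)
  rcases lt_or_gt_of_ne hne with h | h
  · exact key l l' h hl
  · rw [norm_sub_rev]
    exact key l' l h hl'

/-- **long roots**: `t`, `t'` of norm at most one, `1 + t w^m E_aa' ∈ S`, `1 + t' w^m E_a'a ∈ S`. -/
noncomputable def longT {a a' : n} (haa : a ≠ a') {t t' w : k} (hw0 : w ≠ 0) (hw : ‖w‖ < 1)
    (ht0 : t ≠ 0) (ht0' : t' ≠ 0) (ht : ‖t‖ ≤ 1) (ht' : ‖t'‖ ≤ 1)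
    (hup : ∀ m : ℕ, tv haa (t * w ^ m) ∈ S) (hlo : ∀ m : ℕ, tv haa.symm (t' * w ^ m) ∈ S) :
    RowT S k (n → k) where
  ρ₁ x := x.1.1 a
  ρ₂ x := x.1.1 a'
  ne := row_ne a a'
  K := insert (1 : S) (range fun m : ℕ => (⟨tv haa (t * w ^ m), hup m⟩ : S)) ∪
    insert (1 : S) (range fun m : ℕ => (⟨tv haa.symm (t' * w ^ m), hlo m⟩ : S))
  compact := (compact_tv haa hw hup).union (compact_tv haa.symm hw hlo)
  rob := rob_row a a'
  pts p := by
    have hp : ∀ i : Fin p, (i : ℕ) < p := fun i => i.2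
    have hw1 : 0 < ‖w‖ := norm_pos_iff.2 hw0
    have hpw : ∀ m : ℕ, ‖w ^ m‖ ≤ 1 := fun m => by
      rw [norm_pow]
      exact pow_le_one₀ (norm_nonneg _) hw.le
    have h1 : 0 < ‖w‖ ^ p * (1 - ‖w‖) := mul_pos (pow_pos hw1 _) (by linarith)
    have h1' : ‖w‖ ^ p * (1 - ‖w‖) ≤ 1 := by
      have : ‖w‖ ^ p ≤ 1 := pow_le_one₀ (norm_nonneg _) hw.le
      have h2 : 1 - ‖w‖ ≤ 1 := by linarith
      calc ‖w‖ ^ p * (1 - ‖w‖) ≤ 1 * 1 := mul_le_mul this h2 (by linarith) zero_le_one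
        _ = 1 := one_mul 1
    have hm0 : 0 < min ‖t‖ ‖t'‖ := lt_min (norm_pos_iff.2 ht0) (norm_pos_iff.2 ht0')
    refine ⟨fun i => t * w ^ (i : ℕ), fun i => t' * w ^ (i : ℕ),
      min ‖t‖ ‖t'‖ * (‖w‖ ^ p * (1 - ‖w‖)),
      fun i => ⟨tv haa (t * w ^ (i : ℕ)), hup i⟩, fun i => ⟨tv haa.symm (t' * w ^ (i : ℕ)), hlo i⟩,
      mul_pos hm0 h1, ?_, ?_, ?_, ?_, ?_, ?_, ?_, ?_, ?_, ?_⟩
    · calc min ‖t‖ ‖t'‖ * (‖w‖ ^ p * (1 - ‖w‖)) ≤ 1 * 1 :=
            mul_le_mul ((min_le_left _ _).trans ht) h1' h1.le zero_le_one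
        _ = 1 := one_mul 1
    · intro i
      rw [norm_mul]
      calc ‖t‖ * ‖w ^ (i : ℕ)‖ ≤ 1 * 1 := mul_le_mul ht (hpw i) (norm_nonneg _) zero_le_one
        _ = 1 := one_mul 1
    · intro i j hij
      exact (mul_le_mul_of_nonneg_right (min_le_left _ _) h1.le).trans
        (sep_pow hw p (fun h => hij (Fin.ext h)) i.2 j.2)
    · intro i j hij
      exact (mul_le_mul_of_nonneg_right (min_le_right _ _) h1.le).trans
        (sep_pow hw p (fun h => hij (Fin.ext h)) i.2 j.2)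
    · exact fun i => Or.inl (Or.inr ⟨i, rfl⟩)
    · exact fun i => Or.inr (Or.inr ⟨i, rfl⟩)
    · exact fun i x => tv_row_same haa _ x.1
    · exact fun i x => tv_row_ne haa _ haa.symm x.1
    · exact fun i x => tv_row_ne haa.symm _ haa x.1
    · exact fun i x => tv_row_same haa.symm _ x.1

/-- elements which commute with the transvections commute with the compact set -/
theorem comm_longT {a a' : n} (haa : a ≠ a') {t t' w : k} (hw0 : w ≠ 0) (hw : ‖w‖ < 1)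
    (ht0 : t ≠ 0) (ht0' : t' ≠ 0) (ht : ‖t‖ ≤ 1) (ht' : ‖t'‖ ≤ 1)
    (hup : ∀ m : ℕ, tv haa (t * w ^ m) ∈ S) (hlo : ∀ m : ℕ, tv haa.symm (t' * w ^ m) ∈ S)
    {g : S} {d : n → k} (hg : g.1.1 = diagonal d) (hd : d a = d a') {x : S}
    (hx : x ∈ (longT haa hw0 hw ht0 ht0' ht ht' hup hlo).K) : Commute g x := by
  have h1 : ∀ s, Commute g.1 (tv haa s) := fun s => dg_tv haa hg hd s
  have h2 : ∀ s, Commute g.1 (tv haa.symm s) := fun s => dg_tv haa.symm hg hd.symm s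
  rcases hx with (rfl | ⟨m, rfl⟩) | (rfl | ⟨m, rfl⟩)
  · exact Commute.one_right g
  · exact Subtype.ext (h1 _)
  · exact Commute.one_right g
  · exact Subtype.ext (h2 _)

/-- **long roots, in `E`** -/
theorem pps_long {E : Type*} [Group E] [TopologicalSpace E] [IsTopologicalGroup E]
    [LocallyCompactSpace E] [SecondCountableTopology E] [MeasurableSpace E]
    [OpensMeasurableSpace E] {a a' : n} (haa : a ≠ a') {t t' w : k} (hw0 : w ≠ 0) (hw : ‖w‖ < 1)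
    (ht0 : t ≠ 0) (ht0' : t' ≠ 0) (ht : ‖t‖ ≤ 1) (ht' : ‖t'‖ ≤ 1)
    (hup : ∀ m : ℕ, tv haa (t * w ^ m) ∈ S) (hlo : ∀ m : ℕ, tv haa.symm (t' * w ^ m) ∈ S)
    {g : S} {d : n → k} (hg : g.1.1 = diagonal d) (hd : ‖d a'‖ < ‖d a‖)
    (φ : S →* E) (hφ : Continuous φ)
    (hp : ∀ C : Set E, IsCompact C → ∃ C' : Set S, IsCompact C' ∧ φ ⁻¹' C ⊆ C') :
    PPs (fun N => φ g ^ N) (φ '' (longT haa hw0 hw ht0 ht0' ht ht' hup hlo).K) :=
  pps_rowT _ (fun _ => rfl) (fun _ => rfl) hg hd φ hφ hp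

end Vale.Agent.P092.H534.Ch
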