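import Vale.Agent.P092.H534.Ch.Xpd
import Vale.Agent.P092.H534.Sp.Pic

/-!
P092 (helper534), TEAM P, stages 2 and 3, [CL-NRM]: near-wall systems `SysF` in rank `r`, for every
target which preserves a form of Witt index at most `r`, along every wall element `b` of the source
`E` such that `b`, `b⁻¹` start chains of length `r`.

`sysR1`: the pair (first gap, all other gaps) = `(L1, L2)`;
`sysRr`: the pair (last gap, all other gaps) = `(log (xp r), log en - log (xp r))`;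
`mid_R`: if the gaps `≠ 1` and the gaps `≠ r` are both large then two classes or a middle class is
large.
-/

set_option linter.all false

open scoped InnerProductSpace ENNReal
open Matrix Filter Topology MeasureTheory ContinuousLinearMap TopologicalSpace

namespace Vale.Agent.P092.H534.Ch

open Vale.Agent.P092.SR Vale.Agent.P092.H160
open Vale.Agent.P092.H761 (SharpData GChain big mem_big Geo Gaps CovFam)
open Vale.Agent.P092.H515 (GSys start2 Dec)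
open Vale.Agent.P092.H538 (ind ind_pos ind_neg ind_nonneg abs_ind_le)
open Vale.Agent.P092.H432 Vale.Agent.P092.H132
open Vale.Agent.P092.H701 (HChain)
open Vale.Agent.P092.H933 (LocK)
open Vale.Agent.P092.H337.NG (en m2 mi en_pos Eqv SLn)
open Vale.Agent.P092.H859.CL (BB)
open Vale.Agent.P092.RC (VR arep_VR VR_one KK pic lam₁ lam₂ XX Om Pic)
open Vale.Agent.P092.H805.RowN (Bd msE sysE cov_VR cov_lx)
open Vale.Agent.P092.H805.Row (msR mpE)
open Vale.Agent.P092.H534.SpK (PHm L1 L2 L_quasi_ph dom_dec nw_cls)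
open Vale.Agent.P092.H632.T2 (xp xp_pos log_xp_eqv)

/-- `b` starts a chain of length `r`. -/
def StC {E : Type} [Group E] [TopologicalSpace E] [MeasurableSpace E] (r : ℕ) (b : E) : Prop :=
  ∃ (c : Fin r → ℕ → E) (𝒦 : Fin r → Set E),
    GChain (fun K : Set E => IsCompact K) (H261.PingT E) r c 𝒦 ∧ ∀ (h : 0 < r) M, c ⟨0, h⟩ M = b ^ M

theorem stC_of_hchain {E : Type} [Group E] [TopologicalSpace E] [MeasurableSpace E] {r : ℕ} {b : E}
    (hr : 0 < r) (hC : ∃ C : HChain E r, ∀ n, C.b ⟨0, hr⟩ n = b ^ n) : StC r b := by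
  obtain ⟨C, hC⟩ := hC
  exact ⟨C.b, C.K, H261.gchain_of_hchain C, fun h M => hC M⟩

section X

variable {E : Type} [Group E] [TopologicalSpace E] [IsTopologicalGroup E] [LocallyCompactSpace E]
  [SecondCountableTopology E] [T2Space E] [MeasurableSpace E] [BorelSpace E]
  (Λ : Subgroup E) [DiscreteTopology Λ] [MeasurableSpace (E ⧸ Λ)] [BorelSpace (E ⧸ Λ)]
  (ν : Measure (E ⧸ Λ)) [IsProbabilityMeasure ν] (hν : ∀ g : E, ν.map (fun x => g • x) = ν)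
  {Γ Q ι : Type} [Group Γ] [Countable Γ] [Group Q] [Countable Q] [Fintype ι] {t : ℝ}
  {R : Λ → (Ell2 ((Γ × Q) × ι) →L[ℂ] Ell2 ((Γ × Q) × ι))}
  {E0 : Set Λ → (Ell2 ((Γ × Q) × ι) →L[ℂ] Ell2 ((Γ × Q) × ι))} {r : ℕ}

/-- **Near-wall along the powers of `b`, any gap system with `r` classes.** -/
theorem nrm_twoX (hR : ARep t R) (hE : CovFam R E0)
    (hq : ∀ A (q : Q), E0 A * lx ((1 : Γ), q) = lx ((1 : Γ), q) * E0 A) (hr : 0 < r) {b : E}
    (hC : StC r b) (hC' : StC r b⁻¹) {I : Type} [Fintype I]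
    {gp : I → Γ → ℝ} {w : Γ → ℝ} {cl : I → Fin r} (hs : GSys gp w)
    (hcomp : ∀ R : ℝ, ∃ R' : ℝ, ∀ i j, cl i = cl j → ∀ g, gp i g ≤ R → gp j g ≤ R')
    (hfin : ∀ R : ℝ, {g | w g ≤ R}.Finite) {G1 G2 : Γ → ℝ}
    (h2c : ∀ R : ℝ, ∃ ρ : ℝ, ∀ γ, ρ < G1 γ → ρ < G2 γ →
      ∃ x y : I, cl x ≠ cl y ∧ R ≤ gp x γ ∧ R ≤ gp y γ) {ε : ℝ} (hε : 0 < ε) :
    ∃ ρ : ℝ, ∀ u ∈ Subgroup.zpowers b,
      massX (H538.fst (H790.baseL (H85.cdat ν hν).μ (Γ × Q) ι)) (H790.Ri (H85.cdat ν hν) R)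
        u (ind fun γ => γ ∈ BB G1 G2 ρ) ≤ ε := by
  classical
  have hd := H761.sharpCoef Λ ν hν hR hE hq
  have key : ∀ b : E, StC r b → ∃ ρ : ℝ, ∀ n : ℕ,
      massX (H538.fst (H790.baseL (H85.cdat ν hν).μ (Γ × Q) ι)) (H790.Ri (H85.cdat ν hν) R)
        (b ^ n) (ind fun γ => γ ∈ BB G1 G2 ρ) ≤ ε := by
    rintro b ⟨C, 𝒦, hC, hb⟩
    obtain ⟨R, hR⟩ := nw_cls hd hC hr le_rfl hs hcomp hfin hε
    obtain ⟨ρ, hρ⟩ := h2c R
    refine ⟨ρ, fun n => ?_⟩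
    rw [← hb hr n]
    exact (hd.ind_mono (C ⟨0, hr⟩ n)
      (P := fun γ => γ ∈ BB G1 G2 ρ) fun γ hγ => hρ γ hγ.1 hγ.2).trans (hR n)
  obtain ⟨r₁, hr₁⟩ := key _ hC
  obtain ⟨r₂, hr₂⟩ := key _ hC'
  have mono : ∀ (r₁ r₂ : ℝ) (u : E), r₁ ≤ r₂ →
      massX (H538.fst (H790.baseL (H85.cdat ν hν).μ (Γ × Q) ι)) (H790.Ri (H85.cdat ν hν) R)
        u (ind fun γ => γ ∈ BB G1 G2 r₂) ≤
      massX (H538.fst (H790.baseL (H85.cdat ν hν).μ (Γ × Q) ι)) (H790.Ri (H85.cdat ν hν) R)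
        u (ind fun γ => γ ∈ BB G1 G2 r₁) := fun r₁ r₂ u h =>
    hd.ind_mono u (P := fun γ => γ ∈ BB G1 G2 r₂) (Q := fun γ => γ ∈ BB G1 G2 r₁)
      fun γ hγ => H859.CL.BB_mono h hγ
  refine ⟨max r₁ r₂, ?_⟩
  rintro _ ⟨z, rfl⟩
  obtain ⟨n, rfl | rfl⟩ := z.eq_nat_or_neg
  · have h0 := hr₁ n
    have h1 := (mono _ _ (b ^ n) (le_max_left r₁ r₂)).trans h0
    simpa using h1
  · have h0 := hr₂ n
    have h1 := (mono _ _ (b⁻¹ ^ n) (le_max_right r₁ r₂)).trans h0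
    simpa using h1

end X

/-! ### The gauges of type `r` -/

section gr

variable {Γ : Type} [Group Γ] {k : Type} [NontriviallyNormedField k] {N r : ℕ}

/-- the last gap: `log (xp r)` -/
noncomputable def Gr (r : ℕ) (g : SpecialLinearGroup (Fin N) k) : ℝ := Real.log (xp r g.1)

/-- all gaps but the last: `log en - log (xp r)` -/
noncomputable def Gr' (r : ℕ) (g : SpecialLinearGroup (Fin N) k) : ℝ :=
  Real.log (en g.1) - Real.log (xp r g.1)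

theorem ph_eqv {q : Γ → SpecialLinearGroup (Fin N) k} (hq : PHm q) (s x u : Γ) :
    Eqv (q (s * x * u)) (q s * q x * q u) := by
  obtain ⟨c, hc⟩ := hq (s * x) u
  obtain ⟨d, hd⟩ := hq s x
  refine ⟨c * d, ?_⟩
  change (q (s * x * u)).1 = (c * d) • ((q s * q x).1 * (q u).1)
  rw [hc]
  change c • ((q (s * x)).1 * (q u).1) = _
  rw [hd, Matrix.smul_mul, smul_smul]

/-- quasi-invariance of the gauges of type `r` -/
theorem Gr_quasi (hN : 2 ≤ N) (hr : 1 ≤ r) (hrN : r ≤ N) {q : Γ → SpecialLinearGroup (Fin N) k}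
    (hq : PHm q) (s u : Γ) :
    ∃ C : ℝ, ∀ x, |Gr r (q (s * x * u)) - Gr r (q x)| ≤ C ∧
      |Gr' r (q (s * x * u)) - Gr' r (q x)| ≤ C := by
  obtain ⟨C1, -, h1⟩ := log_xp_eqv (k := k) hr hrN (q s) (q u)
  obtain ⟨C2, h2⟩ := L_quasi_ph hN hq s u
  refine ⟨C1 + 2 * C2, fun x => ?_⟩
  have e1 := h1 (q x) (q (s * x * u)) (ph_eqv hq s x u)
  obtain ⟨a1, a2⟩ := h2 x
  have hC2 : 0 ≤ C2 := (abs_nonneg _).trans a1
  have en_eq : ∀ g : SpecialLinearGroup (Fin N) k, Real.log (en g.1) = L1 g + L2 g / 2 := fun g => by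
    unfold L1 L2
    ring
  constructor
  · exact e1.trans (by linarith)
  · unfold Gr'
    rw [en_eq, en_eq]
    have b1 := abs_le.1 a1
    have b2 := abs_le.1 a2
    have b3 := abs_le.1 e1
    rw [abs_le]
    constructor <;> linarith [b1.1, b1.2, b2.1, b2.2, b3.1, b3.2]

end gr

/-! ### Two classes -/

section two

variable {Γ : Type} [Group Γ] {k : Type} [NontriviallyNormedField k] [ProperSpace k] {N r : ℕ}

/-- The data of a gap system, second half (output of `gaps_phR`). -/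
def DecG (h2r : 2 * r ≤ N) (q : Γ → SpecialLinearGroup (Fin N) k) {I : Type} (gp : I → Γ → ℝ)
    (cl : I → Fin r) (c C D : ℝ) : Prop :=
  ∀ γ, ∃ κ κi κ' κi' a, Dec C (q γ).1 κ κi κ' κi' a ∧
    (∀ i : Fin N, |Real.log ‖a i‖ + Real.log ‖a (Fin.rev i)‖| ≤ D) ∧
    (∀ i : Fin N, r ≤ i → Real.log ‖a i‖ ≤ D) ∧
    ∀ x : I, |gp x γ - c * gapA h2r a (cl x)| ≤ D

variable {I : Type} {gp : I → Γ → ℝ} {cl : I → Fin r} {c C D : ℝ}
  {q : Γ → SpecialLinearGroup (Fin N) k} {h2r : 2 * r ≤ N}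

theorem DecG.pos (h : DecG h2r q gp cl c C D) (hN : 0 < N) (γ : Γ) : 0 < C := by
  obtain ⟨κ, κi, κ', κi', a, H, -⟩ := h γ
  have h0 : 0 ≤ C := (norm_nonneg _).trans (H.le ⟨0, hN⟩ ⟨0, hN⟩)
  rcases h0.eq_or_lt with h1 | h1
  · exfalso
    have h2 : κ = 0 := by
      ext i j
      have := H.le i j
      rw [← h1] at this
      simpa using this
    have h3 := H.mul
    rw [h2, Matrix.zero_mul] at h3
    have h4 := congrFun (congrFun h3 ⟨0, hN⟩) ⟨0, hN⟩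
    rw [Matrix.zero_apply, Matrix.one_apply_eq] at h4
    exact zero_ne_one h4
  · exact h1

/-- `(L1, L2)`: the first class and another one. -/
theorem DecG.two1 (h2 : 2 ≤ r) (hsur : Function.Surjective cl) (hc : 0 < c)
    (h : DecG h2r q gp cl c C D) (R : ℝ) :
    ∃ ρ : ℝ, ∀ γ, ρ < L1 (q γ) → ρ < L2 (q γ) →
      ∃ x y : I, cl x ≠ cl y ∧ R ≤ gp x γ ∧ R ≤ gp y γ := by
  obtain ⟨K, hK⟩ := dom_dec (k := k) (n := N) (by omega) C
  obtain ⟨R', hR'⟩ : ∃ R' : ℝ, R' = (R + D) / c := ⟨_, rfl⟩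
  have hR0 := abs_nonneg R'
  refine ⟨max (R' + K) (2 * (r * |R'| + |D|) + K), fun γ h1 h3 => ?_⟩
  obtain ⟨κ, κi, κ', κi', a, hdec, -, hD, hgp⟩ := h γ
  have hgap : ∀ l : Fin r, R' < gapA h2r a l → ∃ x : I, cl x = l ∧ R ≤ gp x γ := by
    intro l hl
    obtain ⟨x, hx⟩ := hsur l
    refine ⟨x, hx, ?_⟩
    have h1 := (abs_le.1 (hgp x)).1
    rw [hx] at h1
    have h3 := mul_lt_mul_of_pos_left hl hc
    rw [hR', mul_div_cancel₀ _ hc.ne'] at h3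
    linarith
  obtain ⟨d1, d2⟩ := hK _ _ _ _ _ _ hdec
  have g1 : R' < gapA h2r a ⟨0, by omega⟩ := by
    have := (le_max_left _ _).trans_lt h1
    unfold L1 at this
    unfold gapA
    simp only
    linarith
  have g2 : r * |R'| + |D| < Real.log ‖a ⟨1, by omega⟩‖ := by
    have := (le_max_right _ _).trans_lt h3
    unfold L2 at this
    linarith
  obtain ⟨i, hi1, -, hi3⟩ := exists_gapA h2r a (i := 1) (j := r) (by omega) le_rfl (by omega)
    (R' := R') (by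
      have e : ((r - 1 : ℕ) : ℝ) ≤ r := by exact_mod_cast Nat.sub_le r 1
      have h5 := hD ⟨r, by omega⟩ le_rfl
      have h6 : ((r - 1 : ℕ) : ℝ) * R' ≤ r * |R'| := by
        calc ((r - 1 : ℕ) : ℝ) * R' ≤ ((r - 1 : ℕ) : ℝ) * |R'| :=
              mul_le_mul_of_nonneg_left (le_abs_self R') (Nat.cast_nonneg _)
          _ ≤ r * |R'| := mul_le_mul_of_nonneg_right e hR0
      have h7 := le_abs_self D
      linarith)
  obtain ⟨x, hx, hx'⟩ := hgap _ g1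
  obtain ⟨y, hy, hy'⟩ := hgap i hi3
  refine ⟨x, y, ?_, hx', hy'⟩
  rw [hx, hy]
  intro e
  have := congrArg Fin.val e
  simp only at this
  omega

/-- `(Gr, Gr')`: the last class and another one. -/
theorem DecG.twor (h2 : 2 ≤ r) (hsur : Function.Surjective cl) (hc : 0 < c)
    (h : DecG h2r q gp cl c C D) (R : ℝ) :
    ∃ ρ : ℝ, ∀ γ, ρ < Gr r (q γ) → ρ < Gr' r (q γ) →
      ∃ x y : I, cl x ≠ cl y ∧ R ≤ gp x γ ∧ R ≤ gp y γ := by
  obtain ⟨R', hR'⟩ : ∃ R' : ℝ, R' = (R + D) / c := ⟨_, rfl⟩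
  have hR0 := abs_nonneg R'
  obtain ⟨K, hK⟩ : ∃ K : ℝ, K = |2 * Real.log (N * C)| + |Real.log (N * C ^ 2)| := ⟨_, rfl⟩
  refine ⟨r * |R'| + |D| + K, fun γ h1 h3 => ?_⟩
  have hCp := h.pos (by omega) γ
  obtain ⟨κ, κi, κ', κi', a, hdec, -, hD, hgp⟩ := h γ
  have hgap : ∀ l : Fin r, R' < gapA h2r a l → ∃ x : I, cl x = l ∧ R ≤ gp x γ := by
    intro l hl
    obtain ⟨x, hx⟩ := hsur l
    refine ⟨x, hx, ?_⟩
    have h1 := (abs_le.1 (hgp x)).1
    rw [hx] at h1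
    have h3 := mul_lt_mul_of_pos_left hl hc
    rw [hR', mul_div_cancel₀ _ hc.ne'] at h3
    linarith
  have hx := abs_le.1 (log_xp_dec' hCp hdec (r := r) (by omega) (by omega))
  have e0 : r - 1 + 1 = r := by omega
  have hen := log_en_dec hCp hdec (by omega) (en_pos (by omega) (q γ))
  have k1 := le_abs_self (2 * Real.log (N * C))
  have k2 := le_abs_self (Real.log (N * C ^ 2))
  have k3 := abs_nonneg (2 * Real.log (N * C))
  have k4 := abs_nonneg (Real.log (N * C ^ 2))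
  have kD := le_abs_self D
  have kR := le_abs_self R'
  unfold Gr at h1
  unfold Gr' at h3
  have hr1 : (1 : ℝ) ≤ r := by exact_mod_cast (by omega : 1 ≤ r)
  have g1 : R' < gapA h2r a ⟨r - 1, by omega⟩ := by
    have h5 := hD ⟨r, by omega⟩ le_rfl
    have e : gapA h2r a ⟨r - 1, by omega⟩ =
        Real.log ‖a ⟨r - 1, by omega⟩‖ - Real.log ‖a ⟨r, by omega⟩‖ := by
      unfold gapA
      simp only [e0]
    have h6 : |R'| ≤ r * |R'| := by nlinarith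
    rw [e]
    linarith [hx.1, hx.2]
  have g2 : r * |R'| + |D| < Real.log ‖a ⟨0, by omega⟩‖ - Real.log ‖a ⟨r - 1, by omega⟩‖ := by
    linarith [hx.1, hx.2]
  obtain ⟨j, -, hj2, hj3⟩ := exists_gapA h2r a (i := 0) (j := r - 1) (by omega) (by omega)
    (by omega) (R' := R') (by
      have e : ((r - 1 - 0 : ℕ) : ℝ) ≤ r := by exact_mod_cast (by omega : r - 1 - 0 ≤ r)
      have h6 : ((r - 1 - 0 : ℕ) : ℝ) * R' ≤ r * |R'| := by
        calc ((r - 1 - 0 : ℕ) : ℝ) * R' ≤ ((r - 1 - 0 : ℕ) : ℝ) * |R'| :=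
              mul_le_mul_of_nonneg_left kR (Nat.cast_nonneg _)
          _ ≤ r * |R'| := mul_le_mul_of_nonneg_right e hR0
      have := abs_nonneg D
      linarith)
  obtain ⟨x, hx, hx'⟩ := hgap _ g1
  obtain ⟨y, hy, hy'⟩ := hgap j hj3
  refine ⟨x, y, ?_, hx', hy'⟩
  rw [hx, hy]
  intro e
  have := congrArg Fin.val e
  simp only at this
  omega

/-- `(L2, Gr')`: two classes or a middle one. -/
theorem DecG.mid (h2 : 2 ≤ r) (hsur : Function.Surjective cl) (hc : 0 < c)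
    (h : DecG h2r q gp cl c C D) (R : ℝ) :
    ∃ ρ : ℝ, ∀ γ, ρ < L2 (q γ) → ρ < Gr' r (q γ) →
      (∃ x y : I, cl x ≠ cl y ∧ R ≤ gp x γ ∧ R ≤ gp y γ) ∨
      ∃ x : I, (cl x : ℕ) ≠ 0 ∧ (cl x : ℕ) ≠ r - 1 ∧ R ≤ gp x γ := by
  obtain ⟨K, hK⟩ := dom_dec (k := k) (n := N) (by omega) C
  obtain ⟨K', hK'⟩ : ∃ K' : ℝ, K' = |2 * Real.log (N * C)| + |Real.log (N * C ^ 2)| := ⟨_, rfl⟩
  refine two_or_mid (k := k) h2 h2r hsur hc h (A := fun γ => L2 (q γ)) (B := fun γ => Gr' r (q γ))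
    (K₁ := 2) (K₂ := K) (K₃ := 1) (K₄ := K') two_pos one_pos (fun γ κ κi κ' κi' a H => ?_)
    (fun γ κ κi κ' κi' a H => ?_) R
  · exact (hK _ _ _ _ _ _ H).2
  · have hCp := h.pos (by omega) γ
    have hx := abs_le.1 (log_xp_dec' hCp H (r := r) (by omega) (by omega))
    have hen := log_en_dec hCp H (by omega) (en_pos (by omega) (q γ))
    have k1 := le_abs_self (2 * Real.log (N * C))
    have k2 := le_abs_self (Real.log (N * C ^ 2))
    unfold Gr'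
    rw [hK']
    linarith [hx.1, hx.2]

end two

/-! ### Near-wall in mass form, any model -/

section massf

variable {E : Type} [Group E] [TopologicalSpace E] [IsTopologicalGroup E] [LocallyCompactSpace E]
  [SecondCountableTopology E] [T2Space E] [MeasurableSpace E] [BorelSpace E]
  (Λ : Subgroup E) [DiscreteTopology Λ] [MeasurableSpace (E ⧸ Λ)] [BorelSpace (E ⧸ Λ)]
  (ν : Measure (E ⧸ Λ)) [IsProbabilityMeasure ν] (hν : ∀ g : E, ν.map (fun x => g • x) = ν)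
  {Γ Q ι : Type} [Group Γ] [Countable Γ] [Group Q] [Countable Q] [Fintype ι] {t : ℝ}
  {R : Λ → (Ell2 ((Γ × Q) × ι) →L[ℂ] Ell2 ((Γ × Q) × ι))}
  {E0 : Set Λ → (Ell2 ((Γ × Q) × ι) →L[ℂ] Ell2 ((Γ × Q) × ι))}
  {N r : ℕ} {k : Type} [NontriviallyNormedField k] [ProperSpace k]

/-- **Near-wall, mass form, any model: the pair `(L1, L2)`.** -/
theorem nrmR1 (hR : ARep t R) (hE : CovFam R E0)
    (hq0 : ∀ A (q : Q), E0 A * lx ((1 : Γ), q) = lx ((1 : Γ), q) * E0 A) (h2 : 2 ≤ r)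
    (h2r : 2 * r ≤ N) {b : E} (hC : StC r b) (hC' : StC r b⁻¹) (hk : LocK k)
    {q : Γ → SpecialLinearGroup (Fin N) k} (hph : PHm q) {σ : k →+* k} (hσ : ∀ x, ‖σ x‖ = ‖x‖)
    {J : Matrix (Fin N) (Fin N) k} (hJ : J.det ≠ 0)
    (hform : ∀ γ, (q γ).1 * J * ((q γ).1.map σ)ᵀ = J)
    (hiso : ∀ v : Fin (r + 1) → Fin N → k, LinearIndependent k v →
      ∃ i j, v i ⬝ᵥ (J *ᵥ (fun l => σ (v j l))) ≠ 0)
    (disc : ∀ C : ℝ, {γ : Γ | en (q γ).1 ≤ C}.Finite) {ε : ℝ} (hε : 0 < ε) :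
    ∃ ρ : ℝ, ∀ u ∈ Subgroup.zpowers b,
      massX (H538.fst (H790.baseL (H85.cdat ν hν).μ (Γ × Q) ι)) (H790.Ri (H85.cdat ν hν) R)
        u (ind fun γ => γ ∈ BB (fun γ => L1 (q γ)) (fun γ => L2 (q γ)) ρ) ≤ ε := by
  obtain ⟨I, hI, gp, w, cl, hs, hsur, hcomp, hfin, c, C, D, hc, hd⟩ :=
    gaps_phR hk (by omega) h2r hph hσ hJ hform hiso disc
  have hG : DecG h2r q gp cl c C D := hd
  exact nrm_twoX Λ ν hν hR hE hq0 (by omega) hC hC' hs hcomp hfin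
    (fun R => hG.two1 h2 hsur hc R) hε

/-- **Near-wall, mass form, any model: the pair `(Gr, Gr')`.** -/
theorem nrmRr (hR : ARep t R) (hE : CovFam R E0)
    (hq0 : ∀ A (q : Q), E0 A * lx ((1 : Γ), q) = lx ((1 : Γ), q) * E0 A) (h2 : 2 ≤ r)
    (h2r : 2 * r ≤ N) {b : E} (hC : StC r b) (hC' : StC r b⁻¹) (hk : LocK k)
    {q : Γ → SpecialLinearGroup (Fin N) k} (hph : PHm q) {σ : k →+* k} (hσ : ∀ x, ‖σ x‖ = ‖x‖)
    {J : Matrix (Fin N) (Fin N) k} (hJ : J.det ≠ 0)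
    (hform : ∀ γ, (q γ).1 * J * ((q γ).1.map σ)ᵀ = J)
    (hiso : ∀ v : Fin (r + 1) → Fin N → k, LinearIndependent k v →
      ∃ i j, v i ⬝ᵥ (J *ᵥ (fun l => σ (v j l))) ≠ 0)
    (disc : ∀ C : ℝ, {γ : Γ | en (q γ).1 ≤ C}.Finite) {ε : ℝ} (hε : 0 < ε) :
    ∃ ρ : ℝ, ∀ u ∈ Subgroup.zpowers b,
      massX (H538.fst (H790.baseL (H85.cdat ν hν).μ (Γ × Q) ι)) (H790.Ri (H85.cdat ν hν) R)
        u (ind fun γ => γ ∈ BB (fun γ => Gr r (q γ)) (fun γ => Gr' r (q γ)) ρ) ≤ ε := by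
  obtain ⟨I, hI, gp, w, cl, hs, hsur, hcomp, hfin, c, C, D, hc, hd⟩ :=
    gaps_phR hk (by omega) h2r hph hσ hJ hform hiso disc
  have hG : DecG h2r q gp cl c C D := hd
  exact nrm_twoX Λ ν hν hR hE hq0 (by omega) hC hC' hs hcomp hfin
    (fun R => hG.twor h2 hsur hc R) hε

end massf

/-! ### `SysF` on the picture -/

section con

variable {E : Type} [Group E] [TopologicalSpace E] [IsTopologicalGroup E] [LocallyCompactSpace E]
  [SecondCountableTopology E] [T2Space E] [MeasurableSpace E] [BorelSpace E]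
  {Γ : Subgroup E} [DiscreteTopology Γ] [Countable Γ] [MeasurableSpace (E ⧸ Γ)]
  [BorelSpace (E ⧸ Γ)] {ν : Measure (E ⧸ Γ)} [IsProbabilityMeasure ν]
  (hν : ∀ g : E, ν.map (fun x => g • x) = ν)
  {Λ : Type} [Group Λ] [Countable Λ] {α : Γ →* (Ell2 Λ →L[ℂ] Ell2 Λ)} (hα : Frame α)
  {N r : ℕ} {k : Type} [NontriviallyNormedField k] [ProperSpace k]

/-- **`SysF` for the pair `(L1, L2)` = (first gap, all other gaps).** -/
theorem sysR1 (h2 : 2 ≤ r) (h2r : 2 * r ≤ N) {b : E}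
    (hC : StC r b) (hC' : StC r b⁻¹) (hk : LocK k)
    {q : Γ → SpecialLinearGroup (Fin N) k} (hph : PHm q) {σ : k →+* k} (hσ : ∀ x, ‖σ x‖ = ‖x‖)
    {J : Matrix (Fin N) (Fin N) k} (hJ : J.det ≠ 0)
    (hform : ∀ γ, (q γ).1 * J * ((q γ).1.map σ)ᵀ = J)
    (hiso : ∀ v : Fin (r + 1) → Fin N → k, LinearIndependent k v →
      ∃ i j, v i ⬝ᵥ (J *ᵥ (fun l => σ (v j l))) ≠ 0)
    (disc : ∀ C : ℝ, {γ : Γ | en (q γ).1 ≤ C}.Finite) :
    H859.CL.SysF (mpE ν hα) (fun g => pic hν hα g) (Bd ν hα) (msE hν hα) (Subgroup.zpowers b)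
      (fun γ => L1 (q γ)) (fun γ => L2 (q γ)) := by
  obtain ⟨I, hI, gp, w, cl, hs, hsur, hcomp, hfin, c, C, D, hc, hd⟩ :=
    gaps_phR hk (by omega) h2r hph hσ hJ hform hiso disc
  have hG : DecG h2r q gp cl c C D := hd
  exact sysE hν hα (L_quasi_ph (by omega) hph) fun ε hε =>
    nrm_twoX Γ ν hν (arep_VR hα) (cov_VR hα) (fun A q => cov_lx hα A q) (by omega) hC hC' hs hcomp
      hfin (fun R => hG.two1 h2 hsur hc R) hε

/-- **`SysF` for the pair `(Gr, Gr')` = (last gap, all other gaps).** -/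
theorem sysRr (h2 : 2 ≤ r) (h2r : 2 * r ≤ N) {b : E}
    (hC : StC r b) (hC' : StC r b⁻¹) (hk : LocK k)
    {q : Γ → SpecialLinearGroup (Fin N) k} (hph : PHm q) {σ : k →+* k} (hσ : ∀ x, ‖σ x‖ = ‖x‖)
    {J : Matrix (Fin N) (Fin N) k} (hJ : J.det ≠ 0)
    (hform : ∀ γ, (q γ).1 * J * ((q γ).1.map σ)ᵀ = J)
    (hiso : ∀ v : Fin (r + 1) → Fin N → k, LinearIndependent k v →
      ∃ i j, v i ⬝ᵥ (J *ᵥ (fun l => σ (v j l))) ≠ 0)
    (disc : ∀ C : ℝ, {γ : Γ | en (q γ).1 ≤ C}.Finite) :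
    H859.CL.SysF (mpE ν hα) (fun g => pic hν hα g) (Bd ν hα) (msE hν hα) (Subgroup.zpowers b)
      (fun γ => Gr r (q γ)) (fun γ => Gr' r (q γ)) := by
  obtain ⟨I, hI, gp, w, cl, hs, hsur, hcomp, hfin, c, C, D, hc, hd⟩ :=
    gaps_phR hk (by omega) h2r hph hσ hJ hform hiso disc
  have hG : DecG h2r q gp cl c C D := hd
  exact sysE hν hα (Gr_quasi (by omega) (by omega) (by omega) hph) fun ε hε =>
    nrm_twoX Γ ν hν (arep_VR hα) (cov_VR hα) (fun A q => cov_lx hα A q) (by omega) hC hC' hs hcomp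
      hfin (fun R => hG.twor h2 hsur hc R) hε

end con

end Vale.Agent.P092.H534.Ch
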