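import Vale.Agent.P092.H534.Ch.GapsR
import Vale.Agent.P092.H632.T2.Exp

/-!
P092 (helper534), TEAM P, stages 2 and 3, [CL-NRM]: helper632's expansion number `xp r` against the
bounded Cartan decompositions `Dec M` (any constant `M`).
-/

set_option linter.all false

open Matrix Module Set

namespace Vale.Agent.P092.H534.Ch

open Vale.Agent.P092.H515 (Dec)
open Vale.Agent.P092.H337.NG
open Vale.Agent.P092.H899.T (Xp)
open Vale.Agent.P092.H632.T2 (xp xp_le_of le_xp exists_cols xp_pos)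

variable {k : Type} [NontriviallyNormedField k] {n : ℕ}

theorem mulVec_leM {U : Matrix (Fin n) (Fin n) k} {M : ℝ} (hM : 0 ≤ M) (hU : ∀ i j, ‖U i j‖ ≤ M)
    (v : Fin n → k) : ‖U *ᵥ v‖ ≤ (n * M) * ‖v‖ := by
  refine (pi_norm_le_iff_of_nonneg (by positivity)).2 fun i => ?_
  change ‖∑ j, U i j * v j‖ ≤ _
  refine (norm_sum_le _ _).trans ?_
  have h1 : ∀ j ∈ Finset.univ, ‖U i j * v j‖ ≤ M * ‖v‖ := fun j _ => by
    rw [norm_mul]
    exact mul_le_mul (hU i j) (norm_le_pi_norm v j) (norm_nonneg _) hM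
  refine (Finset.sum_le_sum h1).trans ?_
  rw [Finset.sum_const, Finset.card_univ, Fintype.card_fin, nsmul_eq_mul]
  exact le_of_eq (by ring)

theorem dec_apply {M : ℝ} {h κ κi κ' κi' : Matrix (Fin n) (Fin n) k} {a : Fin n → k}
    (H : Dec M h κ κi κ' κi' a) (v : Fin n → k) :
    h *ᵥ v = κ *ᵥ fun i => a i * (κ' *ᵥ v) i := by
  rw [H.eq, ← mulVec_mulVec, ← mulVec_mulVec]
  congr 1
  funext i
  rw [mulVec_diagonal]

/-- upper bound -/
theorem xp_le_dec {M : ℝ} (hM : 0 ≤ M) {h κ κi κ' κi' : Matrix (Fin n) (Fin n) k} {a : Fin n → k}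
    (H : Dec M h κ κi κ' κi' a) {d : ℕ} (hd : d + 1 ≤ n) :
    xp (d + 1) h ≤ (n * M) ^ 2 * ‖a ⟨d, hd⟩‖ := by
  refine xp_le_of hd fun c hc => ?_
  obtain ⟨L, hL, hc⟩ := hc
  obtain ⟨F, hF⟩ : ∃ F : L →ₗ[k] (Fin d → k), ∀ v i, F v i = (κ' *ᵥ v.1) ⟨i, by omega⟩ :=
    ⟨{ toFun := fun v i => (κ' *ᵥ v.1) ⟨i, by omega⟩
       map_add' := fun v w => by
        funext i
        change (κ' *ᵥ (v.1 + w.1)) _ = _
        rw [mulVec_add]; rfl
       map_smul' := fun t v => by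
        funext i
        change (κ' *ᵥ (t • v.1)) _ = _
        rw [mulVec_smul]; rfl }, fun _ _ => rfl⟩
  have : Module.Finite k L := inferInstance
  have hk : LinearMap.ker F ≠ ⊥ := by
    refine LinearMap.ker_ne_bot_of_finrank_lt ?_
    rw [finrank_fin_fun, hL]
    exact Nat.lt_succ_self d
  obtain ⟨v, hv, hv0⟩ := Submodule.exists_mem_ne_zero_of_ne_bot hk
  have hz : ∀ i : Fin n, (i : ℕ) < d → (κ' *ᵥ v.1) i = 0 := fun i hi => by
    have h1 := congrFun (LinearMap.mem_ker.1 hv) ⟨i, hi⟩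
    rw [hF] at h1
    exact h1
  have hv' : 0 < ‖(v : Fin n → k)‖ := norm_pos_iff.2 fun h0 => hv0 (Subtype.ext h0)
  have h1 := hc v.1 v.2
  rw [dec_apply H] at h1
  have h2 := mulVec_leM hM H.le fun i => a i * (κ' *ᵥ v.1) i
  have h3 : ‖fun i => a i * (κ' *ᵥ v.1) i‖ ≤ ‖a ⟨d, hd⟩‖ * ‖κ' *ᵥ v.1‖ := by
    rw [pi_norm_le_iff_of_nonneg (by positivity)]
    intro i
    by_cases hi : (i : ℕ) < d
    · rw [hz i hi, mul_zero, norm_zero]; positivity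
    · rw [norm_mul]
      exact mul_le_mul (H.anti (show (⟨d, hd⟩ : Fin n) ≤ i from by
        rw [Fin.le_def]; simp only; omega)) (norm_le_pi_norm _ i) (norm_nonneg _) (norm_nonneg _)
  have h4 := mulVec_leM hM H.le' v.1
  have hn0 : (0 : ℝ) ≤ n := Nat.cast_nonneg n
  have h5 : c * ‖(v : Fin n → k)‖ ≤ ((n * M) ^ 2 * ‖a ⟨d, hd⟩‖) * ‖(v : Fin n → k)‖ := by
    calc _ ≤ (n * M) * ‖fun i => a i * (κ' *ᵥ v.1) i‖ := h1.trans h2
      _ ≤ (n * M) * (‖a ⟨d, hd⟩‖ * ((n * M) * ‖(v : Fin n → k)‖)) := by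
          refine mul_le_mul_of_nonneg_left (h3.trans ?_) (by positivity)
          exact mul_le_mul_of_nonneg_left h4 (norm_nonneg _)
      _ = _ := by ring
  exact le_of_mul_le_mul_right h5 hv'

/-- the expanded subspace -/
theorem xp_of_dec {M : ℝ} (hM : 0 < M) {h κ κi κ' κi' : Matrix (Fin n) (Fin n) k} {a : Fin n → k}
    (H : Dec M h κ κi κ' κi' a) {d : ℕ} (hd : d + 1 ≤ n) :
    Xp (‖a ⟨d, hd⟩‖ / (n * M) ^ 2) (d + 1) h := by
  have hn0 : (0 : ℝ) < n := by exact_mod_cast (by omega : 0 < n)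
  have hvv : κi' * κ' = 1 := mul_eq_one_comm.1 H.mul'
  have huu : κi * κ = 1 := mul_eq_one_comm.1 H.mul
  obtain ⟨L, hL, hm⟩ := exists_cols hvv hd
  refine ⟨L, hL, fun v hv => ?_⟩
  have hz := (hm v).1 hv
  have h1 : ‖a ⟨d, hd⟩‖ * ‖κ' *ᵥ v‖ ≤ ‖fun i => a i * (κ' *ᵥ v) i‖ := by
    rcases (norm_nonneg (a ⟨d, hd⟩)).eq_or_lt with h0 | h0
    · rw [← h0, zero_mul]; exact norm_nonneg _
    rw [← le_div_iff₀' h0, pi_norm_le_iff_of_nonneg (by positivity)]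
    intro i
    rw [le_div_iff₀' h0]
    by_cases hi : (i : ℕ) < d + 1
    · calc ‖a ⟨d, hd⟩‖ * ‖(κ' *ᵥ v) i‖ ≤ ‖a i‖ * ‖(κ' *ᵥ v) i‖ := by
            refine mul_le_mul_of_nonneg_right ?_ (norm_nonneg _)
            exact H.anti (show i ≤ (⟨d, hd⟩ : Fin n) from by rw [Fin.le_def]; simp only; omega)
        _ = ‖a i * (κ' *ᵥ v) i‖ := (norm_mul _ _).symm
        _ ≤ _ := norm_le_pi_norm (fun i => a i * (κ' *ᵥ v) i) i
    · rw [hz i (by omega), norm_zero, mul_zero]; exact norm_nonneg _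
  have h2 : ‖fun i => a i * (κ' *ᵥ v) i‖ ≤ (n * M) * ‖h *ᵥ v‖ := by
    have e : (fun i => a i * (κ' *ᵥ v) i) = κi *ᵥ (h *ᵥ v) := by
      rw [dec_apply H, mulVec_mulVec, huu, one_mulVec]
    rw [e]
    exact mulVec_leM hM.le H.lei _
  have h3 : ‖v‖ ≤ (n * M) * ‖κ' *ᵥ v‖ := by
    have e : v = κi' *ᵥ (κ' *ᵥ v) := by rw [mulVec_mulVec, hvv, one_mulVec]
    calc ‖v‖ = ‖κi' *ᵥ (κ' *ᵥ v)‖ := by rw [← e]
      _ ≤ _ := mulVec_leM hM.le H.lei' _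
  rw [div_mul_eq_mul_div, div_le_iff₀ (by positivity)]
  calc ‖a ⟨d, hd⟩‖ * ‖v‖ ≤ ‖a ⟨d, hd⟩‖ * ((n * M) * ‖κ' *ᵥ v‖) :=
        mul_le_mul_of_nonneg_left h3 (norm_nonneg _)
    _ = (n * M) * (‖a ⟨d, hd⟩‖ * ‖κ' *ᵥ v‖) := by ring
    _ ≤ (n * M) * ((n * M) * ‖h *ᵥ v‖) := mul_le_mul_of_nonneg_left (h1.trans h2) (by positivity)
    _ = _ := by ring

/-- **Comparison of `xp` with `Dec M`.** -/
theorem log_xp_dec {M : ℝ} (hM : 0 < M) {h κ κi κ' κi' : Matrix (Fin n) (Fin n) k} {a : Fin n → k}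
    (H : Dec M h κ κi κ' κi' a) {d : ℕ} (hd : d + 1 ≤ n) :
    |Real.log (xp (d + 1) h) - Real.log ‖a ⟨d, hd⟩‖| ≤ 2 * Real.log (n * M) := by
  have hn0 : (0 : ℝ) < n := by exact_mod_cast (by omega : 0 < n)
  have ha : 0 < ‖a ⟨d, hd⟩‖ := norm_pos_iff.2 (H.ne _)
  have h1 := xp_le_dec hM.le H hd
  have h2 := le_xp (by omega) (xp_of_dec hM H hd)
  have hx : 0 < xp (d + 1) h := lt_of_lt_of_le (by positivity) h2
  have h3 := Real.log_le_log hx h1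
  have h4 := Real.log_le_log (by positivity) h2
  rw [Real.log_mul (by positivity) ha.ne', Real.log_pow] at h3
  rw [Real.log_div ha.ne' (by positivity), Real.log_pow] at h4
  push_cast at h3 h4
  rw [abs_le]
  constructor <;> linarith

theorem log_xp_dec' {M : ℝ} (hM : 0 < M) {h κ κi κ' κi' : Matrix (Fin n) (Fin n) k} {a : Fin n → k}
    (H : Dec M h κ κi κ' κi' a) {r : ℕ} (hr : 1 ≤ r) (hrn : r ≤ n) :
    |Real.log (xp r h) - Real.log ‖a ⟨r - 1, by omega⟩‖| ≤ 2 * Real.log (n * M) := by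
  obtain ⟨d, rfl⟩ : ∃ d, r = d + 1 := ⟨r - 1, by omega⟩
  exact log_xp_dec hM H hrn

/-- `en` against `Dec M`. -/
theorem en_le_dec {M : ℝ} (hM : 0 ≤ M) {h κ κi κ' κi' : Matrix (Fin n) (Fin n) k} {a : Fin n → k}
    (H : Dec M h κ κi κ' κi' a) (hn : 0 < n) : en h ≤ (n * M ^ 2) * ‖a ⟨0, hn⟩‖ := by
  refine en_le_of (by positivity) fun i j => ?_
  rw [H.eq, Matrix.mul_apply]
  refine (norm_sum_le _ _).trans ?_
  have h1 : ∀ l ∈ Finset.univ, ‖(κ * diagonal a) i l * κ' l j‖ ≤ M ^ 2 * ‖a ⟨0, hn⟩‖ := by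
    intro l _
    rw [mul_diagonal, norm_mul, norm_mul]
    calc ‖κ i l‖ * ‖a l‖ * ‖κ' l j‖ ≤ M * ‖a ⟨0, hn⟩‖ * M := by
          refine mul_le_mul (mul_le_mul (H.le i l) ?_ (norm_nonneg _) hM) (H.le' l j)
            (norm_nonneg _) (by positivity)
          exact H.anti (show (⟨0, hn⟩ : Fin n) ≤ l from Nat.zero_le _)
      _ = _ := by ring
  refine (Finset.sum_le_sum h1).trans ?_
  rw [Finset.sum_const, Finset.card_univ, Fintype.card_fin, nsmul_eq_mul]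
  exact le_of_eq (by ring)

theorem log_en_dec {M : ℝ} (hM : 0 < M) {h κ κi κ' κi' : Matrix (Fin n) (Fin n) k} {a : Fin n → k}
    (H : Dec M h κ κi κ' κi' a) (hn : 0 < n) (he : 0 < en h) :
    Real.log (en h) ≤ Real.log ‖a ⟨0, hn⟩‖ + Real.log (n * M ^ 2) := by
  have hn0 : (0 : ℝ) < n := by exact_mod_cast hn
  have ha : 0 < ‖a ⟨0, hn⟩‖ := norm_pos_iff.2 (H.ne _)
  have h3 := Real.log_le_log he (en_le_dec hM.le H hn)
  rw [Real.log_mul (by positivity) ha.ne'] at h3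
  linarith

end Vale.Agent.P092.H534.Ch
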